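import Crest.Agent.R17.P.Glue

/-!
Row 17, block P: separation of the two columns (Mellin transform of `exp (-y)`, characters mod 4).
-/

set_option autoImplicit false

namespace Crest.Agent.R17

open scoped ComplexConjugate

open MeasureTheory Complex

/-- `continuous_tsum` (or `Adm.continuous_DD`) -/
theorem AdmP.cont_Gs {F ρ : O → ℂ} (hF : AdmP F) (hρ : ∀ m, ‖ρ m‖ ≤ 1) (σ : ℝ) :
    Continuous (fun τ : ℝ => Gs F ρ (σ + τ * I)) ∧
      ∀ τ : ℝ, ‖Gs F ρ (σ + τ * I)‖ ≤ ∑' m : Pr, ‖F m‖ * nm m ^ σ := by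
  have hb : ∀ (m : Pr) (τ : ℝ),
      ‖F m * ρ m * (nm m : ℂ) ^ ((σ : ℂ) + τ * I)‖ ≤ ‖F m‖ * nm m ^ σ := fun m τ => by
    have hm : 0 < nm (m : O) := nm_pos (Prim.ne_zero m.2)
    rw [norm_mul, norm_mul, Complex.norm_cpow_eq_rpow_re_of_pos hm]
    have h1 : ((σ : ℂ) + τ * I).re = σ := by simp
    rw [h1]
    have h2 : ‖F m‖ * ‖ρ m‖ ≤ ‖F m‖ := mul_le_of_le_one_right (norm_nonneg _) (hρ m)
    exact mul_le_mul_of_nonneg_right h2 (Real.rpow_nonneg hm.le _)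
  refine ⟨?_, fun τ => ?_⟩
  · refine continuous_tsum (fun m => ?_) (hF.dec σ) hb
    have hm : (nm (m : O) : ℂ) ≠ 0 := Complex.ofReal_ne_zero.2 (nm_pos (Prim.ne_zero m.2)).ne'
    exact continuous_const.mul (Continuous.const_cpow (by fun_prop) (Or.inl hm))
  · exact tsum_of_norm_bounded (hF.dec σ).hasSum fun m => hb m τ

theorem integrable_exp_neg_abs {c : ℝ} (hc : 0 < c) : Integrable fun τ : ℝ => Real.exp (-c * |τ|) := by
  rw [← integrableOn_univ, ← Set.Iic_union_Ioi (a := (0 : ℝ))]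
  refine IntegrableOn.union ?_ ?_
  · refine (integrableOn_exp_mul_Iic hc 0).congr_fun (fun x hx => ?_) measurableSet_Iic
    simp only [abs_of_nonpos (Set.mem_Iic.1 hx)]
    congr 1
    ring
  · refine (integrableOn_exp_mul_Ioi (neg_lt_zero.2 hc) 0).congr_fun (fun x hx => ?_)
      measurableSet_Ioi
    simp only [abs_of_pos (Set.mem_Ioi.1 hx)]

theorem AdmP.integrable_Gs {F ρ : O → ℂ} (hF : AdmP F) (hρ : ∀ m, ‖ρ m‖ ≤ 1) (σ : ℝ) :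
    Integrable fun τ : ℝ => Real.exp (-|τ|) * ‖Gs F ρ (σ + τ * I)‖ ^ 2 := by
  obtain ⟨hc, hb⟩ := hF.cont_Gs hρ σ
  have h1 : Integrable fun τ : ℝ => Real.exp (-|τ|) := by
    simpa using integrable_exp_neg_abs one_pos
  refine h1.mul_bdd (c := (∑' m : Pr, ‖F m‖ * nm m ^ σ) ^ 2)
    (hc.norm.pow 2).aestronglyMeasurable (Filter.Eventually.of_forall fun τ => ?_)
  rw [norm_pow, norm_norm]
  exact pow_le_pow_left₀ (norm_nonneg _) (hb τ) 2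

/-- `exists_Tw_expand₂` for `(a, b) ↦ eps a b * gam b ^ 2` (`eps_congr`, `gam_congr`, `gam_sq'`), then
reindex the second character by `conj` (`IsTw.conj`, `Finset.sum_bij'`), or expand
`conj`-wise directly -/
theorem exists_Wk_expand : ∃ c : (O → ℂ) → (O → ℂ) → ℂ, (∀ ψ φ, ‖c ψ φ‖ ≤ 1) ∧
    ∀ a b, IsCoprime a 6 → IsCoprime b 6 →
      Wk a b = ∑ ψ ∈ Tw 4, ∑ φ ∈ Tw 4, c ψ φ * ψ a * conj (φ b) := by
  obtain ⟨c, hc, hc'⟩ := exists_Tw_expand₂ (q := 4) (by norm_num)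
    (F := fun a b => eps a b * gam b ^ 2) (B := 1)
    (fun a a' b b' ha hb h1 h2 => by
      rw [eps_congr (twb_four.1 ha) (twb_four.1 hb) h1 h2, gam_congr (twb_four.1 hb) h2])
    fun a b ha hb => by
      rw [norm_mul, norm_pow, norm_eps (twb_four.1 ha) (twb_four.1 hb), norm_gam (twb_four.1 hb)]
      norm_num
  refine ⟨fun ψ φ => c ψ fun n => conj (φ n), fun ψ φ => hc _ _, fun a b ha hb => ?_⟩
  have h4 : (4 : O) ≠ 0 := by norm_num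
  rw [Wk, ← gam_sq' hb, hc' a b (twb_four.2 (coprime_six_iff.1 ha).1)
    (twb_four.2 (coprime_six_iff.1 hb).1)]
  refine Finset.sum_congr rfl fun ψ _ => ?_
  refine Finset.sum_nbij' (fun φ n => conj (φ n)) (fun φ n => conj (φ n))
    (fun φ hφ => (mem_Tw h4).2 ((mem_Tw h4).1 hφ).conj)
    (fun φ hφ => (mem_Tw h4).2 ((mem_Tw h4).1 hφ).conj) (fun φ _ => by simp) (fun φ _ => by simp)
    fun φ _ => by simp

theorem Sepa_cpow {x : ℝ} (hx : 0 < x) (w : ℂ) : (x : ℂ) ^ w = cexp ((Real.log x : ℂ) * w) := by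
  rw [cpow_def_of_ne_zero (by exact_mod_cast hx.ne'), ← ofReal_log hx.le]

theorem Sepa_pos (m : Pr) : 0 < nm (m : O) := nm_pos (Pr_prim m).ne_zero

theorem Sepa_summable {F ρ : O → ℂ} (hF : AdmP F) (hρ : ∀ m, ‖ρ m‖ ≤ 1) (z : ℂ) :
    Summable fun m : Pr => ‖F m * ρ m * (nm m : ℂ) ^ z‖ := by
  refine Summable.of_nonneg_of_le (fun _ => norm_nonneg _) (fun m => ?_) (hF.dec z.re)
  rw [norm_mul, norm_mul, norm_cpow_eq_rpow_re_of_pos (Sepa_pos m)]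
  exact mul_le_mul_of_nonneg_right (mul_le_of_le_one_right (norm_nonneg _) (hρ m))
    (Real.rpow_nonneg (Sepa_pos m).le _)

theorem Sepa_DD {F ψ φ : O → ℂ} (hF : AdmP F) (hψ : ∀ m, ‖ψ m‖ ≤ 1) (hφ : ∀ m, ‖φ m‖ ≤ 1) {κ : ℝ}
    (hκ : 0 < κ) (z : ℂ) :
    DD (fun p : Pr × Pr => F p.1 * ψ p.1 * conj (F p.2 * φ p.2))
        (fun p => κ / (nm (p.1 : O) * nm (p.2 : O))) z =
      (κ : ℂ) ^ (-z) * (Gs F ψ z * conj (Gs F φ (conj z))) := by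
  have h2 : Summable fun m : Pr => ‖conj (F m * φ m * (nm m : ℂ) ^ (conj z))‖ := by
    simpa only [norm_conj] using Sepa_summable hF hφ (conj z)
  rw [Gs, Gs, conj_tsum, tsum_mul_tsum_of_summable_norm (Sepa_summable hF hψ z) h2, ← tsum_mul_left, DD]
  refine tsum_congr fun p => ?_
  have h1 := Sepa_pos p.1
  have h2 := Sepa_pos p.2
  have e : ((κ / (nm (p.1 : O) * nm (p.2 : O)) : ℝ) : ℂ) ^ (-z) =
      (κ : ℂ) ^ (-z) * ((nm (p.1 : O) : ℂ) ^ z * conj ((nm (p.2 : O) : ℂ) ^ (conj z))) := by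
    rw [Sepa_cpow (by positivity), Sepa_cpow hκ, Sepa_cpow h1, Sepa_cpow h2, ← exp_conj, map_mul,
      conj_conj, conj_ofReal, Real.log_div hκ.ne' (by positivity), Real.log_mul h1.ne' h2.ne',
      ← Complex.exp_add, ← Complex.exp_add]
    congr 1
    push_cast
    ring
  rw [e]
  simp only [map_mul]
  ring

theorem Sepa_adm {F ψ φ : O → ℂ} (hF : AdmP F) (hψ : ∀ m, ‖ψ m‖ ≤ 1) (hφ : ∀ m, ‖φ m‖ ≤ 1) {κ : ℝ}
    (hκ : 0 < κ) (σ : ℝ) :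
    Adm (fun p : Pr × Pr => F p.1 * ψ p.1 * conj (F p.2 * φ p.2))
      (fun p => κ / (nm (p.1 : O) * nm (p.2 : O))) σ := by
  refine ⟨fun p _ => div_pos hκ (mul_pos (Sepa_pos _) (Sepa_pos _)), ?_⟩
  have h0 : ∀ m : Pr, 0 ≤ ‖F m‖ * nm m ^ σ := fun m =>
    mul_nonneg (norm_nonneg _) (Real.rpow_nonneg (nm_nonneg _) _)
  refine Summable.of_nonneg_of_le (fun p => mul_nonneg (norm_nonneg _)
    (Real.rpow_nonneg (div_pos hκ (mul_pos (Sepa_pos _) (Sepa_pos _))).le _)) (fun p => ?_)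
    (((hF.dec σ).mul_of_nonneg (hF.dec σ) h0 h0).mul_left (κ ^ (-σ)))
  have h1 := Sepa_pos p.1
  have h2 := Sepa_pos p.2
  have e : (κ / (nm (p.1 : O) * nm (p.2 : O))) ^ (-σ) =
      κ ^ (-σ) * (nm (p.1 : O) ^ σ * nm (p.2 : O) ^ σ) := by
    rw [Real.div_rpow hκ.le (by positivity), Real.rpow_neg (by positivity : 0 ≤ nm (p.1 : O) * _),
      Real.mul_rpow h1.le h2.le, div_inv_eq_mul]
  have e2 : ‖F p.1 * ψ p.1 * conj (F p.2 * φ p.2)‖ ≤ ‖F p.1‖ * ‖F p.2‖ := by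
    rw [norm_mul, norm_conj, norm_mul, norm_mul]
    exact mul_le_mul (mul_le_of_le_one_right (norm_nonneg _) (hψ _))
      (mul_le_of_le_one_right (norm_nonneg _) (hφ _)) (by positivity) (norm_nonneg _)
  rw [e]
  calc _ ≤ ‖F p.1‖ * ‖F p.2‖ * (κ ^ (-σ) * (nm (p.1 : O) ^ σ * nm (p.2 : O) ^ σ)) :=
        mul_le_mul_of_nonneg_right e2 (by positivity)
    _ = _ := by ring

/-- one pair of characters.  `gw (N₁ N₂ / L) h = exp (-y)`, `y = κ / (N₁ N₂)`, `κ = (2π/√3) L N h ≥ L`;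
`exp_neg_eq_VI`, `Adm.VI_mul_DD` on the index type `Pr × Pr` with `l p = κ / (N p.1 N p.2)` and kernel
`Gamma`; `DD … (σ + iτ) = κ^(-z) Gs F ψ (σ + iτ) conj (Gs F φ (σ - iτ))` (`Summable.tsum_mul_tsum`);
`norm_Gamma_le_exp`, `2 x y ≤ x² + y²`, `integral_neg_eq_self`. -/
theorem sep_one {σ : ℝ} (hσ : 0 < σ) : ∃ C : ℝ, 0 < C ∧ ∀ (F ψ φ : O → ℂ) (L : ℝ) (h : O), AdmP F →
    (∀ m, ‖ψ m‖ ≤ 1) → (∀ m, ‖φ m‖ ≤ 1) → 0 < L → h ≠ 0 →
    ‖∑' p : Pr × Pr, F p.1 * ψ p.1 * conj (F p.2 * φ p.2) * (gw (nm p.1 * nm p.2 / L) h : ℝ)‖ ≤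
      C * L ^ (-σ) * ((∫ τ : ℝ, Real.exp (-|τ|) * ‖Gs F ψ (σ + τ * I)‖ ^ 2) +
        ∫ τ : ℝ, Real.exp (-|τ|) * ‖Gs F φ (σ + τ * I)‖ ^ 2) := by
  have hG : 0 < Real.Gamma σ := Real.Gamma_pos_of_pos hσ
  have hπ := Real.pi_pos
  refine ⟨1 / (2 * Real.pi) * (Real.Gamma σ * 2 ^ σ), by positivity,
    fun F ψ φ L h hF hψ hφ hL hh => ?_⟩
  have h3 : 0 < Real.sqrt 3 := by positivity
  have hh1 := one_le_nm hh
  obtain ⟨κ, hκ⟩ : ∃ κ, κ = 2 * Real.pi * nm h * L / Real.sqrt 3 := ⟨_, rfl⟩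
  have hLκ : L ≤ κ := by
    have : Real.sqrt 3 ≤ 2 := by
      rw [Real.sqrt_le_iff]; norm_num
    rw [hκ, le_div_iff₀ h3]
    have : Real.sqrt 3 ≤ 2 * Real.pi * nm h := by nlinarith [Real.pi_gt_three]
    nlinarith
  have hκ0 : 0 < κ := hL.trans_le hLκ
  have hA := Sepa_adm hF hψ hφ hκ0 σ
  have h1 := (hA.VI_mul_DD (vInt_Gamma hσ)).2.tsum_eq
  have h2 : (fun p : Pr × Pr => F p.1 * ψ p.1 * conj (F p.2 * φ p.2) *
      ((gw (nm p.1 * nm p.2 / L) h : ℝ) : ℂ)) = fun p : Pr × Pr => F p.1 * ψ p.1 * conj (F p.2 * φ p.2) *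
        VI σ fun s => Gamma s * ((κ / (nm (p.1 : O) * nm (p.2 : O)) : ℝ) : ℂ) ^ (-s) := by
    funext p
    have a1 := Sepa_pos p.1
    have a2 := Sepa_pos p.2
    rw [← (exp_neg_eq_VI hσ (by positivity : 0 < κ / (nm (p.1 : O) * nm (p.2 : O)))).2, gw, hκ]
    congr 4
    field_simp
  have i1 := hF.integrable_Gs hψ σ
  have i2 := hF.integrable_Gs hφ σ
  rw [h2, h1]
  refine (norm_VI_le (φ := fun y => Real.Gamma σ * 2 ^ σ * L ^ (-σ) *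
    (Real.exp (-|y|) * ‖Gs F ψ (σ + y * I)‖ ^ 2 +
      Real.exp (-|-y|) * ‖Gs F φ (σ + (-y : ℝ) * I)‖ ^ 2)) ((i1.add i2.comp_neg).const_mul _)
    fun y => ?_).trans (le_of_eq ?_)
  · have hre : ((σ : ℂ) + y * I).re = σ := by simp
    have him : ((σ : ℂ) + y * I).im = y := by simp
    have hc : conj ((σ : ℂ) + y * I) = σ + (-y : ℝ) * I := by simp
    have g := norm_Gamma_le_exp (s := σ + y * I) (by rwa [hre])
    rw [hre, him] at g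
    have k : κ ^ (-σ) ≤ L ^ (-σ) := Real.rpow_le_rpow_of_nonpos hL hLκ (by linarith)
    rw [Sepa_DD hF hψ hφ hκ0, norm_mul, norm_mul, norm_mul, norm_conj,
      norm_cpow_eq_rpow_re_of_pos hκ0, neg_re, hre, hc, abs_neg]
    set u := ‖Gs F ψ (σ + y * I)‖
    set v := ‖Gs F φ (σ + (-y : ℝ) * I)‖
    have hu : 0 ≤ u := norm_nonneg _
    have hv : 0 ≤ v := norm_nonneg _
    have huv : u * v ≤ u ^ 2 + v ^ 2 := by nlinarith [sq_nonneg (u - v)]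
    calc _ ≤ Real.Gamma σ * 2 ^ σ * Real.exp (-|y|) * (L ^ (-σ) * (u ^ 2 + v ^ 2)) := by gcongr
      _ = _ := by ring
  · rw [integral_const_mul, integral_add i1 i2.comp_neg,
      integral_neg_eq_self (fun y : ℝ => Real.exp (-|y|) * ‖Gs F φ (σ + y * I)‖ ^ 2)]
    ring

/-- `exists_Wk_expand`, `sep_one`, `card_Tw_le` -/
theorem sep {σ : ℝ} (hσ : 0 < σ) : ∃ C : ℝ, 0 < C ∧ ∀ (F : O → ℂ) (L : ℝ) (h : O), AdmP F →
    0 < L → h ≠ 0 →
    ‖∑' p : Pr × Pr, F p.1 * conj (F p.2) * Wk p.1 p.2 * (gw (nm p.1 * nm p.2 / L) h : ℝ)‖ ≤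
      C * L ^ (-σ) * ∑ ρ ∈ Tw 4, ∫ τ : ℝ, Real.exp (-|τ|) * ‖Gs F ρ (σ + τ * I)‖ ^ 2 := by
  obtain ⟨C, hC, hsep⟩ := sep_one hσ
  obtain ⟨c, hc, hW⟩ := exists_Wk_expand
  have h4 : (4 : O) ≠ 0 := by norm_num
  have hN : (0 : ℝ) < (Tw 4).card := by exact_mod_cast card_Tw_pos h4
  refine ⟨C * (2 * (Tw 4).card), by positivity, fun F L h hF hL hh => ?_⟩
  have hle : ∀ ρ ∈ Tw 4, ∀ m, ‖ρ m‖ ≤ 1 := fun ρ hρ => ((mem_Tw h4).1 hρ).norm_le h4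
  set T : (O → ℂ) → (O → ℂ) → Pr × Pr → ℂ := fun ψ φ p =>
    F p.1 * ψ p.1 * conj (F p.2 * φ p.2) * (gw (nm p.1 * nm p.2 / L) h : ℝ) with hT
  have hsum : ∀ ψ ∈ Tw 4, ∀ φ ∈ Tw 4, Summable (T ψ φ) := fun ψ hψ φ hφ => by
    refine Summable.of_norm_bounded (hF.summable_norm.mul_of_nonneg hF.summable_norm
      (fun _ => norm_nonneg _) fun _ => norm_nonneg _) fun p => ?_
    have hK : 0 < nm (p.1 : O) * nm (p.2 : O) / L :=
      div_pos (mul_pos (nm_pos (Prim.ne_zero p.1.2)) (nm_pos (Prim.ne_zero p.2.2))) hL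
    simp only [hT, norm_mul, Complex.norm_conj, Complex.norm_real,
      Real.norm_of_nonneg (gw_pos _ _).le]
    calc ‖F p.1‖ * ‖ψ p.1‖ * (‖F p.2‖ * ‖φ p.2‖) * gw (nm (p.1 : O) * nm (p.2 : O) / L) h
        ≤ ‖F p.1‖ * 1 * (‖F p.2‖ * 1) * 1 := by
          have := (gw_pos (nm (p.1 : O) * nm (p.2 : O) / L) h).le
          gcongr
          · exact hle ψ hψ _
          · exact hle φ hφ _
          · exact gw_le_one hK h
      _ = ‖F p.1‖ * ‖F p.2‖ := by ring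
  have hexp : ∑' p : Pr × Pr, F p.1 * conj (F p.2) * Wk p.1 p.2 * (gw (nm p.1 * nm p.2 / L) h : ℝ) =
      ∑ ψ ∈ Tw 4, ∑ φ ∈ Tw 4, c ψ φ * ∑' p, T ψ φ p := by
    have h1 : ∀ p : Pr × Pr, F p.1 * conj (F p.2) * Wk p.1 p.2 * (gw (nm p.1 * nm p.2 / L) h : ℝ) =
        ∑ ψ ∈ Tw 4, ∑ φ ∈ Tw 4, c ψ φ * T ψ φ p := fun p => by
      by_cases h1 : F p.1 = 0
      · simp [hT, h1]
      by_cases h2 : F p.2 = 0
      · simp [hT, h2]
      rw [hW _ _ (Prim.coprime_six p.1.2 (hF.supp _ p.1.2 h1).2)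
        (Prim.coprime_six p.2.2 (hF.supp _ p.2.2 h2).2)]
      simp only [hT, Finset.mul_sum, Finset.sum_mul, map_mul]
      exact Finset.sum_congr rfl fun ψ _ => Finset.sum_congr rfl fun φ _ => by ring
    rw [tsum_congr h1, Summable.tsum_finsetSum fun ψ hψ =>
      summable_sum fun φ hφ => (hsum ψ hψ φ hφ).mul_left _]
    refine Finset.sum_congr rfl fun ψ hψ => ?_
    rw [Summable.tsum_finsetSum fun φ hφ => (hsum ψ hψ φ hφ).mul_left _]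
    exact Finset.sum_congr rfl fun φ _ => tsum_mul_left
  rw [hexp]
  set J : (O → ℂ) → ℝ := fun ρ => ∫ τ : ℝ, Real.exp (-|τ|) * ‖Gs F ρ (σ + τ * I)‖ ^ 2 with hJ
  calc ‖∑ ψ ∈ Tw 4, ∑ φ ∈ Tw 4, c ψ φ * ∑' p, T ψ φ p‖
      ≤ ∑ ψ ∈ Tw 4, ∑ φ ∈ Tw 4, C * L ^ (-σ) * (J ψ + J φ) := by
        refine norm_sum_le_of_le _ fun ψ hψ => norm_sum_le_of_le _ fun φ hφ => ?_
        rw [norm_mul]
        exact (mul_le_of_le_one_left (norm_nonneg _) (hc ψ φ)).trans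
          (hsep F ψ φ L h hF (hle ψ hψ) (hle φ hφ) hL hh)
    _ = C * (2 * (Tw 4).card) * L ^ (-σ) * ∑ ρ ∈ Tw 4, J ρ := by
        simp only [← Finset.mul_sum, Finset.sum_add_distrib, Finset.sum_const, nsmul_eq_mul]
        ring

/-- pigeonhole: by contradiction, `integral_mono_of_nonneg` against `exp (-|τ| / 2)` -/
theorem exists_twist : ∃ C : ℝ, 0 < C ∧ ∀ {κ : Type} (S : Finset κ) (Φ : κ → ℝ → ℝ), S.Nonempty →
    (∀ ρ τ, 0 ≤ Φ ρ τ) → ∃ ρ ∈ S, ∃ τ : ℝ,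
      ∑ ρ ∈ S, ∫ τ : ℝ, Real.exp (-|τ|) * Φ ρ τ ≤ C * S.card * (Real.exp (-|τ| / 2) * Φ ρ τ) := by
  have hint : Integrable fun τ : ℝ => Real.exp (-|τ| / 2) := by
    refine (integrable_exp_neg_abs (c := 1 / 2) (by norm_num)).congr
      (Filter.Eventually.of_forall fun τ => ?_)
    simp only
    congr 1
    ring
  set J : ℝ := ∫ τ : ℝ, Real.exp (-|τ| / 2) with hJ
  have hJ0 : 0 ≤ J := integral_nonneg fun τ => (Real.exp_pos _).le
  refine ⟨J + 1, by positivity, fun {κ} S Φ hS hΦ => ?_⟩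
  by_contra hcon
  push Not at hcon
  set T : ℝ := ∑ ρ ∈ S, ∫ τ : ℝ, Real.exp (-|τ|) * Φ ρ τ with hT
  have hN : (0 : ℝ) < S.card := by exact_mod_cast hS.card_pos
  have hD : 0 < (J + 1) * S.card := by positivity
  have hT0 : 0 < T := by
    obtain ⟨ρ, hρ⟩ := hS
    refine lt_of_le_of_lt ?_ (hcon ρ hρ 0)
    have := hΦ ρ 0
    positivity
  have h1 : ∀ ρ ∈ S, ∫ τ : ℝ, Real.exp (-|τ|) * Φ ρ τ ≤ J * (T / ((J + 1) * S.card)) := by
    intro ρ hρ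
    rw [hJ, ← integral_mul_const]
    refine integral_mono_of_nonneg
      (Filter.Eventually.of_forall fun τ => mul_nonneg (Real.exp_pos _).le (hΦ ρ τ))
      (hint.mul_const _) (Filter.Eventually.of_forall fun τ => ?_)
    have h2 : Real.exp (-|τ|) = Real.exp (-|τ| / 2) * Real.exp (-|τ| / 2) := by
      rw [← Real.exp_add]
      congr 1
      ring
    simp only
    rw [h2, mul_assoc]
    refine mul_le_mul_of_nonneg_left ?_ (Real.exp_pos _).le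
    rw [le_div_iff₀ hD, mul_comm]
    exact (hcon ρ hρ τ).le
  have h3 : T ≤ S.card * (J * (T / ((J + 1) * S.card))) := by
    have := Finset.sum_le_card_nsmul S _ _ h1
    rwa [nsmul_eq_mul] at this
  have h4 : (S.card : ℝ) * (J * (T / ((J + 1) * S.card))) = J * T / (J + 1) := by
    field_simp
  rw [h4, le_div_iff₀ (by positivity)] at h3
  nlinarith

end Crest.Agent.R17
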