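import Crest.Agent.R17.P.Core
import Crest.Agent.R17.P.Sep

/-!
Row 17, block P: Lemma P (Poisson summation over the rows).  Owner: helper20.  STATEMENTS FROZEN.
Everything is real valued; no integrals: the lemma is stated for a finite FAMILY of coefficient
sequences and returns ONE twist `τ` and ONE character `ρ` modulo 4 common to the family.
Definitions: `P/Defs.lean`; glue lemmas (`AdmP.*`, `gt_mul`, `dual_false`, …): `P/Glue.lean`.
-/

set_option autoImplicit false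

namespace Crest.Agent.R17

open scoped ComplexConjugate

open MeasureTheory

theorem four_ne_zero' : (4 : O) ≠ 0 := fun h => by
  have := nm_natCast 4
  rw [Nat.cast_ofNat, h, nm_eq_zero.2 rfl] at this
  norm_num at this

theorem sum_Tw_mul {η : O → ℂ} (hη : IsTw 4 η) (G : (O → ℂ) → ℝ) :
    ∑ ρ ∈ Tw 4, G ρ = ∑ ρ ∈ Tw 4, G fun m => ρ m * η m := by
  have key : ∀ ρ ∈ Tw 4, ∀ m, ρ m * (η m * conj (η m)) = ρ m := fun ρ hρ m => by
    rw [hη.mul_conj four_ne_zero', one]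
    split_ifs with h
    · rw [mul_one]
    · rw [((mem_Tw four_ne_zero').1 hρ).zero m h, zero_mul]
  refine Finset.sum_nbij' (fun ρ m => ρ m * conj (η m)) (fun ρ m => ρ m * η m)
    (fun ρ hρ => (mem_Tw four_ne_zero').2 (((mem_Tw four_ne_zero').1 hρ).mul' hη.conj))
    (fun ρ hρ => (mem_Tw four_ne_zero').2 (((mem_Tw four_ne_zero').1 hρ).mul' hη))
    (fun ρ hρ => funext fun m => ?_) (fun ρ hρ => funext fun m => ?_) fun ρ hρ => ?_
  · rw [mul_assoc, mul_comm (conj (η m)), key ρ hρ]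
  · rw [mul_assoc, key ρ hρ]
  · congr 1
    funext m
    rw [mul_assoc, mul_comm (conj (η m)), key ρ hρ]

theorem cpow_sub_half {m : O} (hm : m ≠ 0) (z : ℂ) :
    (nm m : ℂ) ^ (z - 1 / 2) = (nm m : ℂ) ^ z / (Real.sqrt (nm m) : ℂ) := by
  rw [Complex.cpow_sub _ _ (Complex.ofReal_ne_zero.2 (nm_pos hm).ne'), Real.sqrt_eq_rpow,
    Complex.ofReal_cpow (nm_nonneg m)]
  norm_num

theorem Gs_eq_Sp (a ρ : O → ℂ) (z : ℂ) (l : O × O × O) (h : O) :
    Gs (fun m => a (l.1 * l.2.1 * l.2.2 * m) * bet (l.1 * l.2.2 ^ 2) h m) ρ z =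
      Sp true (dual false a ρ z l) h := by
  refine tsum_congr fun m => ?_
  simp only [dual, bet, sj_true, sj_false, cpow_sub_half (Pr_prim m).ne_zero]
  ring

theorem AdmP.mul_bet {a : O → ℂ} (ha : AdmP a) {d : O} (hd : Prim d) (e h : O) :
    AdmP fun m => a (d * m) * bet e h m := by
  refine (ha.comp_mul hd).of_le (M := 1) (θ := 0) fun n hn => ?_
  rw [Real.rpow_zero, one_mul, one_mul, norm_mul]
  by_cases h0 : a (d * n) = 0
  · rw [h0, norm_zero, zero_mul]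
  · refine mul_le_of_le_one_right (norm_nonneg _) ((norm_bet_le e h
      ((ha.comp_mul hd).osq hn h0)).trans ?_)
    rw [div_le_one (Real.sqrt_pos.2 (nm_pos hn.ne_zero))]
    exact Real.one_le_sqrt.2 (one_le_nm hn.ne_zero)

theorem pre_nonneg (σ : ℝ) {K : ℝ} (hK : 0 < K) (l : O × O × O) : 0 ≤ pre σ K l := by
  have := nm_nonneg l.1
  have := nm_nonneg l.2.2
  unfold pre
  positivity

/-- one label and one row -/
theorem lemmaP_one {σ : ℝ} (hσ : 0 < σ) : ∃ C : ℝ, 0 < C ∧ ∀ (a η : O → ℂ) (K Y : ℝ) (l : O × O × O)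
    (h : O), AdmP a → IsTw 4 η → 0 < K → l ∈ Lab Y → h ≠ 0 →
    (∀ ρ ∈ Tw 4, Integrable fun τ : ℝ => Real.exp (-|τ|) *
      ‖Sp true (dual false a (fun m => ρ m * η m) (σ + τ * Complex.I) l) h‖ ^ 2) ∧
    K / (nm l.1 * nm l.2.2) *
      ‖∑' p : Pr × Pr, a (l.1 * l.2.1 * l.2.2 * p.1) * conj (a (l.1 * l.2.1 * l.2.2 * p.2)) *
        Tm (K / (nm l.1 * nm l.2.2 ^ 2)) (l.1 * l.2.2 ^ 2) h p.1 p.2‖ ≤
      C * ∑ ρ ∈ Tw 4, pre σ K l * ∫ τ : ℝ, Real.exp (-|τ|) *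
        ‖Sp true (dual false a (fun m => ρ m * η m) (σ + τ * Complex.I) l) h‖ ^ 2 := by
  obtain ⟨C, hC, H⟩ := sep hσ
  refine ⟨C, hC, fun a η K Y l h ha hη hK hl hh => ?_⟩
  obtain ⟨h1, h2, h3, -⟩ := mem_Lab'.1 hl
  have hF := ha.mul_bet ((h1.mul h2).mul h3) (l.1 * l.2.2 ^ 2) h
  have p1 := nm_pos h1.ne_zero
  have p3 := nm_pos h3.ne_zero
  refine ⟨fun ρ hρ => ?_, ?_⟩
  · simp only [← Gs_eq_Sp]
    exact hF.integrable_Gs
      (fun m => (((mem_Tw four_ne_zero').1 hρ).mul' hη).norm_le four_ne_zero' m) σ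
  have key := H _ (K / (nm l.1 * nm l.2.2 ^ 2)) h hF (by positivity) hh
  rw [sum_Tw_mul hη] at key
  simp only [Gs_eq_Sp] at key
  have e : ∀ p : Pr × Pr, a (l.1 * l.2.1 * l.2.2 * p.1) * conj (a (l.1 * l.2.1 * l.2.2 * p.2)) *
      Tm (K / (nm l.1 * nm l.2.2 ^ 2)) (l.1 * l.2.2 ^ 2) h p.1 p.2 =
      a (l.1 * l.2.1 * l.2.2 * p.1) * bet (l.1 * l.2.2 ^ 2) h p.1 *
        conj (a (l.1 * l.2.1 * l.2.2 * p.2) * bet (l.1 * l.2.2 ^ 2) h p.2) * Wk p.1 p.2 *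
        (gw (nm p.1 * nm p.2 / (K / (nm l.1 * nm l.2.2 ^ 2))) h : ℝ) := fun p => by
    rw [Tm, map_mul]
    ring
  rw [tsum_congr e, ← Finset.mul_sum]
  refine (mul_le_mul_of_nonneg_left key (by positivity)).trans_eq ?_
  rw [pre, Real.rpow_neg (by positivity), ← Real.inv_rpow (by positivity), inv_div]
  ring

/-- sign `+`, with a label-dependent extra character -/
theorem lemmaP0 (σ : ℝ) (hσ : 0 < σ) (A : ℕ) (hA : 2 ≤ A) : ∃ C : ℝ, 0 < C ∧
    ∀ {ι : Type} (I : Finset ι) (a : ι → O → ℂ) (η : ι → O × O × O → O → ℂ) (w K X : ι → ℝ) (T : ℝ),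
    1 ≤ T → (∀ i ∈ I, AdmP (a i) ∧ 0 ≤ w i ∧ 0 < K i ∧ 0 < X i) → (∀ i l, IsTw 4 (η i l)) →
    ∃ (τ : ℝ) (ρ : O → ℂ), IsTw 4 ρ ∧
      ∑ i ∈ I, w i * En false (a i) (K i) ≤ ∑ i ∈ I, w i * (K i * l2 (a i) +
        C * Real.exp (-|τ| / 2) * ∑ l ∈ Lab (X i * T), pre σ (K i) l *
          ∑ h ∈ rows (len (K i) (X i) T l),
            ‖Sp true (dual false (a i) (fun m => ρ m * η i l m) (σ + τ * Complex.I) l) h‖ ^ 2 +
        C * tail A (a i) (X i) T) := by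
  obtain ⟨C₁, hC₁, H₁⟩ := core1 A hA
  obtain ⟨C₂, hC₂, H₂⟩ := lemmaP_one hσ
  obtain ⟨C₃, hC₃, H₃⟩ := exists_twist
  refine ⟨C₁ + C₂ * (C₃ * (Tw 4).card), by positivity, fun I a η w K X T hT hI hη => ?_⟩
  obtain ⟨G, hG⟩ : ∃ G : (O → ℂ) → _ → (O × O × O) → O → ℝ → ℝ, ∀ ρ i l h τ, G ρ i l h τ =
      ‖Sp true (dual false (a i) (fun m => ρ m * η i l m) (σ + τ * Complex.I) l) h‖ ^ 2 :=
    ⟨_, fun _ _ _ _ _ => rfl⟩
  simp only [← hG] at H₂ ⊢
  have hG0 : ∀ ρ i l h τ, 0 ≤ G ρ i l h τ := fun ρ i l h τ => by rw [hG]; positivity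
  have hM : ∀ ρ τ, ∀ i ∈ I, 0 ≤ ∑ l ∈ Lab (X i * T), pre σ (K i) l *
      ∑ h ∈ rows (len (K i) (X i) T l), G ρ i l h τ := fun ρ τ i hi =>
    Finset.sum_nonneg fun l _ => mul_nonneg (pre_nonneg σ (hI i hi).2.2.1 l)
      (Finset.sum_nonneg fun h _ => hG0 _ _ _ _ _)
  obtain ⟨ρ, hρ, τ, hτ⟩ := H₃ (Tw 4) (fun ρ τ => ∑ i ∈ I, w i * ∑ l ∈ Lab (X i * T), pre σ (K i) l *
      ∑ h ∈ rows (len (K i) (X i) T l), G ρ i l h τ) (Finset.card_pos.1 (card_Tw_pos four_ne_zero'))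
    fun ρ τ => Finset.sum_nonneg fun i hi => mul_nonneg (hI i hi).2.1 (hM ρ τ i hi)
  refine ⟨τ, ρ, (mem_Tw four_ne_zero').1 hρ, ?_⟩
  have hone := fun i (hi : i ∈ I) l (hl : l ∈ Lab (X i * T)) h (hh : h ∈ rows (len (K i) (X i) T l)) =>
    H₂ (a i) (η i l) (K i) _ l h (hI i hi).1 (hη i l) (hI i hi).2.2.1 hl (mem_rows.1 hh).1
  simp only [← hG] at hone
  have hint : ∀ ρ ∈ Tw 4, ∫ τ : ℝ, Real.exp (-|τ|) * ∑ i ∈ I, w i * ∑ l ∈ Lab (X i * T),
      pre σ (K i) l * ∑ h ∈ rows (len (K i) (X i) T l), G ρ i l h τ =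
      ∑ i ∈ I, w i * ∑ l ∈ Lab (X i * T), ∑ h ∈ rows (len (K i) (X i) T l),
        pre σ (K i) l * ∫ τ : ℝ, Real.exp (-|τ|) * G ρ i l h τ := fun ρ hρ => by
    have e : ∀ τ : ℝ, Real.exp (-|τ|) * ∑ i ∈ I, w i * ∑ l ∈ Lab (X i * T),
        pre σ (K i) l * ∑ h ∈ rows (len (K i) (X i) T l), G ρ i l h τ =
        ∑ i ∈ I, ∑ l ∈ Lab (X i * T), ∑ h ∈ rows (len (K i) (X i) T l),
          w i * (pre σ (K i) l * (Real.exp (-|τ|) * G ρ i l h τ)) := fun τ => by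
      simp only [Finset.mul_sum]
      exact Finset.sum_congr rfl fun i _ => Finset.sum_congr rfl fun l _ =>
        Finset.sum_congr rfl fun h _ => by ring
    have i1 := fun i hi l hl h hh =>
      (((hone i hi l hl h hh).1 ρ hρ).const_mul (pre σ (K i) l)).const_mul (w i)
    simp only [e]
    rw [integral_finsetSum _ fun i hi => integrable_finsetSum _ fun l hl =>
      integrable_finsetSum _ fun h hh => i1 i hi l hl h hh]
    refine Finset.sum_congr rfl fun i hi => ?_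
    rw [integral_finsetSum _ fun l hl => integrable_finsetSum _ fun h hh => i1 i hi l hl h hh,
      Finset.mul_sum]
    refine Finset.sum_congr rfl fun l hl => ?_
    rw [integral_finsetSum _ fun h hh => i1 i hi l hl h hh, Finset.mul_sum]
    exact Finset.sum_congr rfl fun h _ => by rw [integral_const_mul, integral_const_mul]
  rw [Finset.sum_congr rfl hint, Finset.sum_comm] at hτ
  have h1 : ∑ i ∈ I, w i * En false (a i) (K i) ≤ ∑ i ∈ I, (w i * (K i * l2 (a i) +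
      C₁ * tail A (a i) (X i) T) + C₂ * ∑ ρ ∈ Tw 4, w i * ∑ l ∈ Lab (X i * T),
        ∑ h ∈ rows (len (K i) (X i) T l),
          pre σ (K i) l * ∫ τ : ℝ, Real.exp (-|τ|) * G ρ i l h τ) := by
    refine Finset.sum_le_sum fun i hi => ?_
    obtain ⟨ha, hw, hK, hX⟩ := hI i hi
    have h2 := (H₁ (a i) (K i) (X i) T ha hK hX hT).trans (add_le_add_left (add_le_add_right
      (Finset.sum_le_sum fun l hl => Finset.sum_le_sum fun h hh => (hone i hi l hl h hh).2) _) _)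
    refine (mul_le_mul_of_nonneg_left h2 hw).trans_eq ?_
    simp only [← Finset.mul_sum, Finset.sum_comm (s := Tw 4)]
    ring
  rw [Finset.sum_add_distrib, ← Finset.mul_sum] at h1
  refine (h1.trans (add_le_add_right (mul_le_mul_of_nonneg_left hτ hC₂.le) _)).trans ?_
  simp only [Finset.mul_sum I, ← Finset.sum_add_distrib]
  refine Finset.sum_le_sum fun i hi => ?_
  have t0 : 0 ≤ tail A (a i) (X i) T := by
    have := (hI i hi).2.2.2
    unfold tail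
    positivity
  have t1 := mul_nonneg (hI i hi).2.1 (mul_nonneg hC₁.le (mul_nonneg (Real.exp_pos (-|τ| / 2)).le
    (hM ρ τ i hi)))
  have t2 := mul_nonneg (hI i hi).2.1 (mul_nonneg
    (show 0 ≤ C₂ * (C₃ * (Tw 4).card) by positivity) t0)
  linarith

theorem AdmP.conj {a : O → ℂ} (ha : AdmP a) : AdmP fun n => conj (a n) :=
  ha.of_le (M := 1) (θ := 0) fun n _ => by simp

theorem En_true (a : O → ℂ) (K : ℝ) : En true a K = En false (fun n => conj (a n)) K :=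
  tsum_congr fun k => by rw [← RCLike.norm_conj (Sp true a k), conj_Sp]; rfl

theorem conj_dual (a ρ : O → ℂ) (σ τ : ℝ) (l : O × O × O) (m : O) :
    conj (dual false (fun n => conj (a n)) ρ (σ + τ * Complex.I) l m) =
      dual true a (fun n => conj (ρ n)) (σ + (-τ : ℝ) * Complex.I) l m := by
  have e : conj ((nm m : ℂ) ^ ((σ : ℂ) + τ * Complex.I - 1 / 2)) =
      (nm m : ℂ) ^ ((σ : ℂ) + (-τ : ℝ) * Complex.I - 1 / 2) := by
    have h := Complex.cpow_conj (nm m : ℂ) ((σ : ℂ) + τ * Complex.I - 1 / 2)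
      (by rw [Complex.arg_ofReal_of_nonneg (nm_nonneg m)]; exact Real.pi_pos.ne)
    rw [Complex.conj_ofReal] at h
    rw [← h]
    congr 1
    simp [map_ofNat]
  simp only [dual, sj_false, sj_true, map_mul, Complex.conj_conj, e]

/-- sign `−`, with a label-dependent extra character -/
theorem lemmaP1 (σ : ℝ) (hσ : 0 < σ) (A : ℕ) (hA : 2 ≤ A) : ∃ C : ℝ, 0 < C ∧
    ∀ {ι : Type} (I : Finset ι) (s : Bool) (a : ι → O → ℂ) (η : ι → O × O × O → O → ℂ)
    (w K X : ι → ℝ) (T : ℝ),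
    1 ≤ T → (∀ i ∈ I, AdmP (a i) ∧ 0 ≤ w i ∧ 0 < K i ∧ 0 < X i) → (∀ i l, IsTw 4 (η i l)) →
    ∃ (τ : ℝ) (ρ : O → ℂ), IsTw 4 ρ ∧
      ∑ i ∈ I, w i * En s (a i) (K i) ≤ ∑ i ∈ I, w i * (K i * l2 (a i) +
        C * Real.exp (-|τ| / 2) * ∑ l ∈ Lab (X i * T), pre σ (K i) l *
          ∑ h ∈ rows (len (K i) (X i) T l),
            ‖Sp (!s) (dual s (a i) (fun m => ρ m * η i l m) (σ + τ * Complex.I) l) h‖ ^ 2 +
        C * tail A (a i) (X i) T) := by
  obtain ⟨C, hC, H⟩ := lemmaP0 σ hσ A hA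
  refine ⟨C, hC, fun I s a η w K X T hT hI hη => ?_⟩
  cases s
  · exact H I a η w K X T hT hI hη
  obtain ⟨τ, ρ, hρ, h⟩ := H I (fun i n => conj (a i n)) (fun i l n => conj (η i l n)) w K X T hT
    (fun i hi => ⟨(hI i hi).1.conj, (hI i hi).2⟩) fun i l => (hη i l).conj
  refine ⟨-τ, fun n => conj (ρ n), hρ.conj, ?_⟩
  have e : ∀ i l h, ‖Sp true (dual false (fun n => conj (a i n)) (fun m => ρ m * conj (η i l m))
      (σ + τ * Complex.I) l) h‖ = ‖Sp (!true) (dual true (a i) (fun m => conj (ρ m) * η i l m)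
        (σ + (-τ : ℝ) * Complex.I) l) h‖ := fun i l h => by
    rw [← RCLike.norm_conj, conj_Sp]
    simp only [conj_dual, map_mul, Complex.conj_conj]
  simp only [e, l2, tail, RCLike.norm_conj] at h
  simpa only [En_true, abs_neg, l2, tail] using h

/-- **Lemma P** (both signs, families). -/
theorem lemmaP (σ : ℝ) (hσ : 0 < σ) (A : ℕ) (hA : 2 ≤ A) : ∃ C : ℝ, 0 < C ∧
    ∀ {ι : Type} (I : Finset ι) (s : Bool) (a : ι → O → ℂ) (w K X : ι → ℝ) (T : ℝ), 1 ≤ T →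
    (∀ i ∈ I, AdmP (a i) ∧ 0 ≤ w i ∧ 0 < K i ∧ 0 < X i) →
    ∃ (τ : ℝ) (ρ : O → ℂ), IsTw 4 ρ ∧
      ∑ i ∈ I, w i * En s (a i) (K i) ≤ ∑ i ∈ I, w i * (K i * l2 (a i) +
        C * Real.exp (-|τ| / 2) * ∑ l ∈ Lab (X i * T), pre σ (K i) l *
          ∑ h ∈ rows (len (K i) (X i) T l),
            ‖Sp (!s) (dual s (a i) ρ (σ + τ * Complex.I) l) h‖ ^ 2 +
        C * tail A (a i) (X i) T) := by
  obtain ⟨C, hC, H⟩ := lemmaP1 σ hσ A hA
  refine ⟨C, hC, fun I s a w K X T hT hI => ?_⟩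
  obtain ⟨τ, ρ, hρ, h⟩ := H I s a (fun _ _ => one 4) w K X T hT hI fun _ _ => isTw_one 4
  exact ⟨τ, _, hρ.mul' (isTw_one 4), h⟩

/-- the Gauss sums cancel -/
theorem Sp_dual_gauss {b : O → ℂ} (hb : AdmP b) (ρ : O → ℂ) (v h : O) (z : ℂ) {Y : ℝ}
    {l : O × O × O} (hl : l ∈ Lab Y) :
    ‖Sp false (dual true (fun m => b m * gt m * sx v m)
        (fun m => ρ m * (one 4 m * eps (l.1 * l.2.1 * l.2.2) m)) z l) h‖ ≤
      ‖Sp false (child b ρ z l) (h * v * l.1 * l.2.1 ^ 2)‖ := by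
  obtain ⟨e, f, j⟩ := l
  obtain ⟨h1, h2, h3, h4, h5, h6, -⟩ := mem_Lab.1 hl
  have hd : Osq (e * f * j) := ⟨h4, h5, h6⟩
  have key : Sp false (dual true (fun m => b m * gt m * sx v m)
      (fun m => ρ m * (one 4 m * eps (e * f * j) m)) z (e, f, j)) h =
      gt (e * f * j) * sx v (e * f * j) * Sp false (child b ρ z (e, f, j)) (h * v * e * f ^ 2) := by
    rw [Sp, Sp, ← tsum_mul_left]
    refine tsum_congr fun m => ?_
    simp only [dual, child, sj_true, sj_false]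
    by_cases h0 : b (e * f * j * m) = 0
    · simp only [h0, zero_mul, mul_zero]
    have hdm := hb.osq (h4.mul (Pr_prim m)) h0
    have hm := hdm.right h4
    have hc := hdm.coprime
    have m6 := hm.1.coprime_six hm.2.2
    have e1 : one 4 m = 1 := by
      rw [one, if_pos]
      rw [show (4 : O) = 2 * 2 by norm_num]
      exact hm.2.2.mul_right hm.2.2
    have e2 := eps_mul_self h6 hm.2.2
    have e3 : gt m * conj (gt m) = 1 := by
      rw [Complex.mul_conj, Complex.normSq_eq_norm_sq, hm.norm_gt]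
      norm_num
    have e4 : sx e m * conj (sx e m) = 1 := by
      rw [sx_mul_conj, if_pos ⟨m6, hc.of_mul_left_left.of_mul_left_left⟩]
    have e5 : sx j m * conj (sx j m) = 1 := by
      rw [sx_mul_conj, if_pos ⟨m6, hc.of_mul_left_right⟩]
    rw [hdm.gt_mul h4, sx_mul_right, e1]
    simp only [sx_mul_left, sx_pow_left _ _ two_ne_zero, map_mul, map_pow]
    set c := b (e * f * j * m) * ρ m * (nm m : ℂ) ^ (z - 1 / 2) * gt (e * f * j) *
      sx v (e * f * j) * sx h m * sx v m * sx e m * sx f m ^ 2 with hc'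
    calc _ = c * (eps (e * f * j) m * eps (e * f * j) m) * (gt m * conj (gt m)) *
          (sx e m * conj (sx e m)) * (sx j m * conj (sx j m)) ^ 2 := by rw [hc']; ring
      _ = _ := by rw [e2, e3, e4, e5, hc']; ring
  rw [key, norm_mul, norm_mul, hd.norm_gt, one_mul]
  exact mul_le_of_le_one_left (norm_nonneg _) (norm_sx_le _ _)

/-- **Lemma P, second step**: sign `−` for the Gauss-weighted coefficients `b(m) g̃_1(m) χ_m(v)`;
the Gauss sums cancel and `b` comes back at the rows `h · v · e · f²`. -/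
theorem lemmaP2 (σ : ℝ) (hσ : 0 < σ) (A : ℕ) (hA : 2 ≤ A) : ∃ C : ℝ, 0 < C ∧
    ∀ {ι : Type} (I : Finset ι) (b : ι → O → ℂ) (v : ι → O) (w K X : ι → ℝ) (T : ℝ), 1 ≤ T →
    (∀ i ∈ I, AdmP (b i) ∧ 0 ≤ w i ∧ 0 < K i ∧ 0 < X i) →
    ∃ (τ : ℝ) (ρ : O → ℂ), IsTw 4 ρ ∧
      ∑ i ∈ I, w i * En true (fun m => b i m * gt m * sx (v i) m) (K i) ≤
        ∑ i ∈ I, w i * (K i * l2 (b i) +
        C * Real.exp (-|τ| / 2) * ∑ l ∈ Lab (X i * T), pre σ (K i) l *
          ∑ h ∈ rows (len (K i) (X i) T l),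
            ‖Sp false (child (b i) ρ (σ + τ * Complex.I) l) (h * v i * l.1 * l.2.1 ^ 2)‖ ^ 2 +
        C * tail A (b i) (X i) T) := by
  classical
  obtain ⟨C, hC, H⟩ := lemmaP1 σ hσ A hA
  refine ⟨C, hC, fun I b v w K X T hT hI => ?_⟩
  obtain ⟨τ, ρ, hρ, h⟩ := H I true (fun i m => b i m * gt m * sx (v i) m)
    (fun _ l m => if IsCoprime (l.1 * l.2.1 * l.2.2) 2 then
      one 4 m * eps (l.1 * l.2.1 * l.2.2) m else one 4 m) w K X T hT
    (fun i hi => ⟨(hI i hi).1.gauss _, (hI i hi).2⟩) fun _ l => by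
      by_cases h2 : IsCoprime (l.1 * l.2.1 * l.2.2) 2
      · simpa only [if_pos h2] using (isTw_one 4).mul_eps dvd_rfl h2
      · simpa only [if_neg h2] using isTw_one 4
  refine ⟨τ, ρ, hρ, h.trans (Finset.sum_le_sum fun i hi => ?_)⟩
  obtain ⟨hb, hw, hK, hX⟩ := hI i hi
  refine mul_le_mul_of_nonneg_left (add_le_add (add_le_add
    (mul_le_mul_of_nonneg_left (l2_mono hb fun n hn => hb.norm_gauss_le _ hn) hK.le)
    (mul_le_mul_of_nonneg_left (Finset.sum_le_sum fun l hl => mul_le_mul_of_nonneg_left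
      (Finset.sum_le_sum fun h _ => pow_le_pow_left₀ (norm_nonneg _) ?_ 2) (pre_nonneg σ hK l))
      (by positivity)))
    (mul_le_mul_of_nonneg_left (tail_mono hb (fun n hn => hb.norm_gauss_le _ hn) A hX
      (by linarith)) hC.le)) hw
  simp only [if_pos (mem_Lab'.1 hl).2.2.2.2.2.1]
  exact Sp_dual_gauss hb ρ _ h _ hl

end Crest.Agent.R17
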