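import Crest.Agent.R17.P.GramC

/-!
Row 17, block P: the Gram bound.
-/

set_option autoImplicit false

namespace Crest.Agent.R17

open scoped ComplexConjugate

/-- the four elementary inequalities -/
theorem Gram_ineq {Z K R F N : ℝ} (hK : 1 ≤ K) (hR : 1 ≤ R) (hN : 1 ≤ N) (hNF : N ≤ F)
    (hF : F ≤ Z ^ 2) :
    N * (K / N * (R / F) + (K / N) ^ (5 / 6 : ℝ) * (R / F) ^ (4 / 3 : ℝ) +
      (R / F) ^ 3 * (K / N) ^ (-1 / 2 : ℝ) * Real.sqrt F + (Z ^ 4)⁻¹) ≤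
      2 * (K * R + K ^ (5 / 6 : ℝ) * R ^ (4 / 3 : ℝ) + R ^ 3 * K ^ (-1 / 2 : ℝ)) / F := by
  have hN0 : 0 < N := by linarith
  have hF1 : 1 ≤ F := hN.trans hNF
  have hF0 : 0 < F := by linarith
  have hK0 : 0 < K := by linarith
  have hR0 : 0 < R := by linarith
  have h1 : N * (K / N * (R / F)) = K * R / F := by field_simp
  have h2 : N * ((K / N) ^ (5 / 6 : ℝ) * (R / F) ^ (4 / 3 : ℝ)) ≤
      K ^ (5 / 6 : ℝ) * R ^ (4 / 3 : ℝ) / F := by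
    rw [Real.div_rpow hK0.le hN0.le, Real.div_rpow hR0.le hF0.le]
    have e1 : N / N ^ (5 / 6 : ℝ) = N ^ (1 / 6 : ℝ) := by
      rw [div_eq_iff (Real.rpow_pos_of_pos hN0 _).ne', ← Real.rpow_add hN0]
      norm_num
    have e2 : F ^ (4 / 3 : ℝ) = F * F ^ (1 / 3 : ℝ) := by
      rw [show (4 / 3 : ℝ) = 1 + 1 / 3 by norm_num, Real.rpow_add hF0, Real.rpow_one]
    have e3 : N ^ (1 / 6 : ℝ) ≤ F ^ (1 / 3 : ℝ) :=
      (Real.rpow_le_rpow hN0.le hNF (by norm_num)).trans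
        (Real.rpow_le_rpow_of_exponent_le hF1 (by norm_num))
    have hp : 0 < F ^ (1 / 3 : ℝ) := Real.rpow_pos_of_pos hF0 _
    have e4 : N * (K ^ (5 / 6 : ℝ) / N ^ (5 / 6 : ℝ) * (R ^ (4 / 3 : ℝ) / F ^ (4 / 3 : ℝ))) =
        K ^ (5 / 6 : ℝ) * R ^ (4 / 3 : ℝ) / F * ((N / N ^ (5 / 6 : ℝ)) / F ^ (1 / 3 : ℝ)) := by
      rw [e2]
      field_simp
    rw [e4, e1]
    refine mul_le_of_le_one_right (by positivity) ?_
    exact (div_le_one hp).2 e3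
  have h3 : N * ((R / F) ^ 3 * (K / N) ^ (-1 / 2 : ℝ) * Real.sqrt F) ≤
      R ^ 3 * K ^ (-1 / 2 : ℝ) / F := by
    rw [Real.div_rpow hK0.le hN0.le]
    have e1 : N ^ (-1 / 2 : ℝ) = (Real.sqrt N)⁻¹ := by
      rw [Real.sqrt_eq_rpow, ← Real.rpow_neg hN0.le]
      norm_num
    have hsN : 0 < Real.sqrt N := Real.sqrt_pos.2 hN0
    have hsF : 0 < Real.sqrt F := Real.sqrt_pos.2 hF0
    have e2 : Real.sqrt N ≤ Real.sqrt F := Real.sqrt_le_sqrt hNF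
    have e3 : Real.sqrt F * Real.sqrt F = F := Real.mul_self_sqrt hF0.le
    have e4 : N * ((R / F) ^ 3 * (K ^ (-1 / 2 : ℝ) / N ^ (-1 / 2 : ℝ)) * Real.sqrt F) =
        R ^ 3 * K ^ (-1 / 2 : ℝ) / F * (N * Real.sqrt N * Real.sqrt F / F ^ 2) := by
      rw [e1]
      field_simp
    rw [e4]
    refine mul_le_of_le_one_right (by positivity) ?_
    rw [div_le_one (by positivity)]
    calc N * Real.sqrt N * Real.sqrt F ≤ F * Real.sqrt F * Real.sqrt F := by gcongr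
      _ = F ^ 2 := by rw [mul_assoc, e3]; ring
  have h4 : N * (Z ^ 4)⁻¹ ≤ K * R / F := by
    have hZ2 : 0 < Z ^ 2 := by linarith
    have e1 : Z ^ 4 = Z ^ 2 * Z ^ 2 := by ring
    have e2 : 1 ≤ K * R := by nlinarith
    rw [e1, ← div_eq_mul_inv, div_le_div_iff₀ (by positivity) hF0]
    calc N * F ≤ Z ^ 2 * Z ^ 2 := by gcongr; exact hNF.trans hF
      _ ≤ K * R * (Z ^ 2 * Z ^ 2) := le_mul_of_one_le_left (by positivity) e2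
  have p2 : 0 ≤ K ^ (5 / 6 : ℝ) * R ^ (4 / 3 : ℝ) / F := by positivity
  have p3 : 0 ≤ R ^ 3 * K ^ (-1 / 2 : ℝ) / F := by positivity
  have e : 2 * (K * R + K ^ (5 / 6 : ℝ) * R ^ (4 / 3 : ℝ) + R ^ 3 * K ^ (-1 / 2 : ℝ)) / F =
      2 * (K * R / F) + 2 * (K ^ (5 / 6 : ℝ) * R ^ (4 / 3 : ℝ) / F) +
        2 * (R ^ 3 * K ^ (-1 / 2 : ℝ) / F) := by ring
  rw [e, mul_add, mul_add, mul_add]
  linarith

/-- one factorisation `f = f₁ f₂` -/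
theorem Gram_pair {q : O} (hq : Lev q) {a ε : ℝ} (ha : 0 < a) (hε : 0 < ε) : ∃ C : ℝ, 0 < C ∧
    ∀ (ψ : O → ℂ) (Z K R : ℝ) (f₁ f₂ : O) (A : Finset O), IsTw q ψ → 1 ≤ K → K ≤ Z → 1 ≤ R → R ≤ Z →
      Prim f₁ → Prim f₂ → nm (f₁ * f₂) ≤ Z ^ 2 →
      (∀ k ∈ A, f₁ ∣ k ∧ ‖gs 5 (-k) (f₁ * f₂)‖ ^ 2 ≤ nm (f₁ * f₂) * nm f₁) →
      ∑ k ∈ A, gw K k * ‖CCf ψ a R (f₁ * f₂) k‖ ^ 2 ≤ C * Z ^ ε *
        (K * R + K ^ (5 / 6 : ℝ) * R ^ (4 / 3 : ℝ) + R ^ 3 * K ^ (-1 / 2 : ℝ)) / nm (f₁ * f₂) := by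
  classical
  obtain ⟨C, hC, h⟩ := gram_core hq ha (show 0 < ε / 4 by positivity)
  refine ⟨2 * C, by positivity, fun ψ Z K R f₁ f₂ A hψ hK hKZ hR hRZ h₁ h₂ hf hA => ?_⟩
  obtain ⟨ψ', hψ', hle⟩ := CCf_le hq hψ a R h₁ h₂
  have hZ : 1 ≤ Z := hK.trans hKZ
  have hf0 : f₁ * f₂ ≠ 0 := (h₁.mul h₂).ne_zero
  have hN : 1 ≤ nm f₁ := one_le_nm h₁.ne_zero
  have hNF : nm f₁ ≤ nm (f₁ * f₂) := nm_le_of_dvd (dvd_mul_right _ _) hf0
  have hF : 1 ≤ nm (f₁ * f₂) := hN.trans hNF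
  have hF0 : 0 < nm (f₁ * f₂) := by linarith
  have hN0 : 0 < nm f₁ := by linarith
  have hZ24 : Z ^ 2 ≤ Z ^ 4 := pow_le_pow_right₀ hZ (by norm_num)
  have hZ14 : Z ≤ Z ^ 4 := le_self_pow₀ hZ (by norm_num)
  have hY : 0 < R / nm (f₁ * f₂) := by positivity
  have hK' : 0 < K / nm f₁ := by positivity
  set b : O → ℂ := fun m => bG ψ' a (R / nm (f₁ * f₂)) m * gt m * sx (f₁ * f₂ ^ 2) m with hb
  have hadm : AdmP b := (admP_bG hq hψ' ha hY).gauss _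
  have hsum := hadm.summable_En true hK'
  have hcore := h ψ' (Z ^ 4) (K / nm f₁) (R / nm (f₁ * f₂)) (f₁ * f₂ ^ 2) (f₁ * f₂) hψ'
    (hZ.trans hZ14) (by
      rw [le_div_iff₀ hN0, inv_mul_le_iff₀ (by positivity)]
      calc nm f₁ ≤ Z ^ 4 := hNF.trans (hf.trans hZ24)
        _ ≤ Z ^ 4 * K := le_mul_of_one_le_right (by positivity) hK)
    hY (((div_le_self (by linarith) hF).trans hRZ).trans hZ14)
    (mul_ne_zero h₁.ne_zero (pow_ne_zero _ h₂.ne_zero))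
    ⟨hf0, 2, ⟨f₁, by ring⟩⟩ (hf.trans hZ24)
  have hstep : ∀ k ∈ A, gw K k * ‖CCf ψ a R (f₁ * f₂) k‖ ^ 2 ≤
      nm f₁ * (gw (K / nm f₁) (dv k f₁) * ‖Sp true b (dv k f₁)‖ ^ 2) := by
    intro k hk
    obtain ⟨hd, hg⟩ := hA k hk
    obtain ⟨k', rfl⟩ := hd
    rw [dv_mul h₁.ne_zero, gw_mul h₁.ne_zero]
    have h3 : ‖gs 5 (-(f₁ * k')) (f₁ * f₂)‖ ^ 2 / nm (f₁ * f₂) ≤ nm f₁ := by
      rw [div_le_iff₀ hF0, mul_comm (nm f₁)]
      exact hg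
    have h4 := (hle k').trans (mul_le_mul_of_nonneg_right h3 (sq_nonneg _))
    have h5 := mul_le_mul_of_nonneg_left h4 (gw_pos (K / nm f₁) k').le
    calc _ ≤ _ := h5
      _ = _ := by ring
  have hinj : Set.InjOn (fun k => dv k f₁) (A : Set O) := by
    intro x hx y hy hxy
    have hx' := mul_dv (hA x hx).1
    have hy' := mul_dv (hA y hy).1
    simp only at hxy
    rw [← hx', ← hy', hxy]
  have hE : ∑ k ∈ A, gw (K / nm f₁) (dv k f₁) * ‖Sp true b (dv k f₁)‖ ^ 2 ≤ En true b (K / nm f₁) := by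
    rw [← Finset.sum_image (f := fun k => gw (K / nm f₁) k * ‖Sp true b k‖ ^ 2) hinj]
    exact hsum.sum_le_tsum _ fun k _ => mul_nonneg (gw_pos _ _).le (sq_nonneg _)
  have hZe : (Z ^ 4) ^ (ε / 4) = Z ^ ε := by
    rw [← Real.rpow_natCast, ← Real.rpow_mul (by linarith)]
    congr 1
    push_cast
    ring
  rw [hZe] at hcore
  have hI := Gram_ineq hK hR hN hNF hf
  have hZp : 0 ≤ C * Z ^ ε := by positivity
  calc _ ≤ ∑ k ∈ A, nm f₁ * (gw (K / nm f₁) (dv k f₁) * ‖Sp true b (dv k f₁)‖ ^ 2) :=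
        Finset.sum_le_sum hstep
    _ ≤ nm f₁ * En true b (K / nm f₁) := by
        rw [← Finset.mul_sum]
        exact mul_le_mul_of_nonneg_left hE hN0.le
    _ ≤ _ := mul_le_mul_of_nonneg_left hcore hN0.le
    _ = C * Z ^ ε * (nm f₁ * _) := by rw [mul_left_comm]
    _ ≤ _ := mul_le_mul_of_nonneg_left hI hZp
    _ = _ := by ring

/-- One squarefull `f`, `F = N f ≤ Z²`.  For each row `k` take `(f₁, f₂) ∈ anti f` from `norm_gs_sq_le`,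
`k = f₁ k'`, `CCf_le`, `gw_mul`: the sum is at most `∑_{(f₁,f₂) ∈ anti f} N f₁ · En true … (K / N f₁)`.
`gram_core` at `Z ^ 4` with `Y = R / F`, `v = f₁ f₂²`, `r = f`; `N f₁ ≤ F`; `card_anti`, `card_pdiv_le`. -/
theorem gram_f {q : O} (hq : Lev q) {a ε : ℝ} (ha : 0 < a) (hε : 0 < ε) : ∃ C : ℝ, 0 < C ∧
    ∀ (ψ : O → ℂ) (Z K R : ℝ) (f : O) (A : Finset O), IsTw q ψ → 1 ≤ K → K ≤ Z → 1 ≤ R → R ≤ Z →
      Prim f → nm f ≤ Z ^ 2 →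
      ∑ k ∈ A, gw K k * ‖CCf ψ a R f k‖ ^ 2 ≤ C * Z ^ ε *
        (K * R + K ^ (5 / 6 : ℝ) * R ^ (4 / 3 : ℝ) + R ^ 3 * K ^ (-1 / 2 : ℝ)) / nm f := by
  classical
  obtain ⟨C, hC, h⟩ := Gram_pair hq ha (show 0 < ε / 2 by positivity)
  obtain ⟨D, hD, hd⟩ := card_pdiv_le (show 0 < ε / 4 by positivity)
  refine ⟨D * C, by positivity, fun ψ Z K R f A hψ hK hKZ hR hRZ hf hfZ => ?_⟩
  have hZ : 1 ≤ Z := hK.trans hKZ
  have hF0 : 0 < nm f := nm_pos hf.ne_zero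
  set P : O × O → O → Prop := fun p k => p.1 ∣ k ∧ ‖gs 5 (-k) f‖ ^ 2 ≤ nm f * nm p.1 with hP
  have hnn : ∀ k, 0 ≤ gw K k * ‖CCf ψ a R f k‖ ^ 2 := fun k =>
    mul_nonneg (gw_pos _ _).le (sq_nonneg _)
  have h1 : ∀ k ∈ A, gw K k * ‖CCf ψ a R f k‖ ^ 2 ≤
      ∑ p ∈ anti f, if P p k then gw K k * ‖CCf ψ a R f k‖ ^ 2 else 0 := by
    intro k _
    obtain ⟨f₁, f₂, h₁, h₂, he, hdv, hg⟩ := norm_gs_sq_le hf (-k)
    have hm : (f₁, f₂) ∈ anti f := mem_anti.2 ⟨h₁, h₂, he.symm⟩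
    have hPk : P (f₁, f₂) k := ⟨dvd_neg.1 hdv, hg⟩
    have := Finset.single_le_sum (f := fun p => if P p k then gw K k * ‖CCf ψ a R f k‖ ^ 2 else 0)
      (fun p _ => by split_ifs; exacts [hnn k, le_rfl]) hm
    simpa only [if_pos hPk] using this
  have hB : 0 ≤ K * R + K ^ (5 / 6 : ℝ) * R ^ (4 / 3 : ℝ) + R ^ 3 * K ^ (-1 / 2 : ℝ) := by
    have : 0 ≤ K := by linarith
    have : 0 ≤ R := by linarith
    positivity
  have h2 : ∀ p ∈ anti f, ∑ k ∈ A, (if P p k then gw K k * ‖CCf ψ a R f k‖ ^ 2 else 0) ≤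
      C * Z ^ (ε / 2) *
        (K * R + K ^ (5 / 6 : ℝ) * R ^ (4 / 3 : ℝ) + R ^ 3 * K ^ (-1 / 2 : ℝ)) / nm f := by
    intro p hp
    obtain ⟨h₁, h₂, he⟩ := mem_anti.1 hp
    rw [← Finset.sum_filter]
    have := h ψ Z K R p.1 p.2 (A.filter (P p)) hψ hK hKZ hR hRZ h₁ h₂ (he ▸ hfZ) (fun k hk => by
      have := (Finset.mem_filter.1 hk).2
      rw [he]
      exact this)
    rwa [he] at this
  have h3 : ((anti f).card : ℝ) ≤ D * Z ^ (ε / 2) := by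
    rw [card_anti hf]
    refine (hd f hf.ne_zero).trans (mul_le_mul_of_nonneg_left ?_ hD.le)
    refine (Real.rpow_le_rpow hF0.le hfZ (by positivity)).trans_eq ?_
    rw [← Real.rpow_natCast, ← Real.rpow_mul (by linarith)]
    congr 1
    push_cast
    ring
  have hZe : Z ^ (ε / 2) * Z ^ (ε / 2) = Z ^ ε := by
    rw [← Real.rpow_add (by linarith), add_halves]
  calc _ ≤ ∑ k ∈ A, ∑ p ∈ anti f, if P p k then gw K k * ‖CCf ψ a R f k‖ ^ 2 else 0 :=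
        Finset.sum_le_sum h1
    _ = ∑ p ∈ anti f, ∑ k ∈ A, if P p k then gw K k * ‖CCf ψ a R f k‖ ^ 2 else 0 :=
        Finset.sum_comm
    _ ≤ (anti f).card • (C * Z ^ (ε / 2) *
        (K * R + K ^ (5 / 6 : ℝ) * R ^ (4 / 3 : ℝ) + R ^ 3 * K ^ (-1 / 2 : ℝ)) / nm f) :=
        Finset.sum_le_card_nsmul _ _ _ h2
    _ ≤ D * Z ^ (ε / 2) * (C * Z ^ (ε / 2) *
        (K * R + K ^ (5 / 6 : ℝ) * R ^ (4 / 3 : ℝ) + R ^ 3 * K ^ (-1 / 2 : ℝ)) / nm f) := by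
        rw [nsmul_eq_mul]
        refine mul_le_mul_of_nonneg_right h3 ?_
        have : 0 ≤ Z := by linarith
        positivity
    _ = _ := by rw [← hZe]; ring

/-- weighted Cauchy–Schwarz -/
theorem Gram_cs (S : Finset O) (w : O → ℝ) (c : O → ℂ) (hw : ∀ f ∈ S, 0 < w f) :
    ‖∑ f ∈ S, c f‖ ^ 2 ≤ (∑ f ∈ S, w f) * ∑ f ∈ S, ‖c f‖ ^ 2 / w f := by
  have h1 : ‖∑ f ∈ S, c f‖ ≤ ∑ f ∈ S, ‖c f‖ := norm_sum_le _ _
  refine (pow_le_pow_left₀ (norm_nonneg _) h1 2).trans ?_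
  have h2 := Finset.sum_mul_sq_le_sq_mul_sq S (fun f => Real.sqrt (w f))
    (fun f => ‖c f‖ / Real.sqrt (w f))
  have e1 : ∑ f ∈ S, Real.sqrt (w f) * (‖c f‖ / Real.sqrt (w f)) = ∑ f ∈ S, ‖c f‖ :=
    Finset.sum_congr rfl fun f hf => by
      have := (Real.sqrt_pos.2 (hw f hf)).ne'
      field_simp
  have e2 : ∑ f ∈ S, Real.sqrt (w f) ^ 2 = ∑ f ∈ S, w f :=
    Finset.sum_congr rfl fun f hf => Real.sq_sqrt (hw f hf).le
  have e3 : ∑ f ∈ S, (‖c f‖ / Real.sqrt (w f)) ^ 2 = ∑ f ∈ S, ‖c f‖ ^ 2 / w f :=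
    Finset.sum_congr rfl fun f hf => by rw [div_pow, Real.sq_sqrt (hw f hf).le]
  rwa [e1, e2, e3] at h2

/-- `CC_split`, Cauchy–Schwarz with weights `N f ^ (∓1/2)`, `sum_sqfull_le`, `gram_f`, `tsum_gw_le`;
`summable_of_sum_le`, `Real.tsum_le_of_sum_le`. -/
theorem stGram : StGram := by
  intro q a ε hq ha hε
  obtain ⟨C₁, hC₁, h₁⟩ := CC_split ha
  obtain ⟨C₂, hC₂, h₂⟩ := sum_sqfull_le (show 0 < ε / 8 by positivity)
  obtain ⟨C₃, hC₃, h₃⟩ := gram_f hq ha (show 0 < ε / 2 by positivity)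
  refine ⟨24 * C₁ ^ 2 + 2 * C₂ ^ 2 * C₃, fun ψ Z K R hψ hK hKZ hR hRZ => ?_⟩
  have hZ : 1 ≤ Z := hK.trans hKZ
  have hK0 : 0 < K := by linarith
  have hR0 : 0 < R := by linarith
  have hZ0 : 0 < Z := by linarith
  set B := K * R + K ^ (5 / 6 : ℝ) * R ^ (4 / 3 : ℝ) + R ^ 3 * K ^ (-1 / 2 : ℝ) with hB
  have hB0 : 0 ≤ B := by positivity
  have hKB : K ≤ B := by
    have : K ≤ K * R := le_mul_of_one_le_right hK0.le hR
    have : 0 ≤ K ^ (5 / 6 : ℝ) * R ^ (4 / 3 : ℝ) := by positivity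
    have : 0 ≤ R ^ 3 * K ^ (-1 / 2 : ℝ) := by positivity
    linarith
  set S := SF (Z ^ 2) with hS
  set w : O → ℝ := fun f => nm f ^ (-(1 / 2) : ℝ) with hw
  have hSp : ∀ f ∈ S, 0 < nm f := fun f hf => nm_pos (mem_SF.1 hf).2.1.ne_zero
  have hwp : ∀ f ∈ S, 0 < w f := fun f hf => Real.rpow_pos_of_pos (hSp f hf) _
  have hW : ∑ f ∈ S, w f ≤ C₂ * Z ^ (ε / 4) := by
    refine (h₂ (Z ^ 2) S (one_le_pow₀ hZ) fun f hf => ?_).trans_eq ?_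
    · obtain ⟨x, y, z⟩ := mem_SF.1 hf
      exact ⟨y.ne_zero, z, x⟩
    · rw [← Real.rpow_natCast, ← Real.rpow_mul hZ0.le]
      congr 2
      push_cast
      ring
  have hW0 : 0 ≤ ∑ f ∈ S, w f := Finset.sum_nonneg fun f hf => (hwp f hf).le
  have hpt : ∀ k, gw K k * ‖CC ψ a R k‖ ^ 2 ≤ 2 * C₁ ^ 2 * gw K k +
      2 * (∑ f ∈ S, w f) * ∑ f ∈ S, gw K k * ‖CCf ψ a R f k‖ ^ 2 / w f := by
    intro k
    have e1 := h₁ ψ R Z k (hψ.norm_le hq.1) hR hRZ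
    have e2 := Gram_cs S w (fun f => CCf ψ a R f k) hwp
    have e3 : ‖CC ψ a R k‖ ≤ C₁ + ‖∑ f ∈ S, CCf ψ a R f k‖ := by
      have := norm_add_le (CC ψ a R k - ∑ f ∈ S, CCf ψ a R f k) (∑ f ∈ S, CCf ψ a R f k)
      rw [sub_add_cancel] at this
      linarith
    have e4 : ‖CC ψ a R k‖ ^ 2 ≤ 2 * C₁ ^ 2 + 2 * ‖∑ f ∈ S, CCf ψ a R f k‖ ^ 2 := by
      have := pow_le_pow_left₀ (norm_nonneg _) e3 2
      nlinarith [sq_nonneg (C₁ - ‖∑ f ∈ S, CCf ψ a R f k‖)]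
    have e5 : ∑ f ∈ S, gw K k * ‖CCf ψ a R f k‖ ^ 2 / w f =
        gw K k * ∑ f ∈ S, ‖CCf ψ a R f k‖ ^ 2 / w f := by
      rw [Finset.mul_sum]
      exact Finset.sum_congr rfl fun f _ => by ring
    rw [e5]
    have e6 := mul_le_mul_of_nonneg_left (e4.trans (add_le_add_right
      (mul_le_mul_of_nonneg_left e2 zero_le_two) _)) (gw_pos K k).le
    calc _ ≤ _ := e6
      _ = _ := by ring
  have hZ1 : 1 ≤ Z ^ ε := Real.one_le_rpow hZ hε.le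
  have hZe : Z ^ (ε / 4) * Z ^ (ε / 4) * Z ^ (ε / 2) = Z ^ ε := by
    rw [← Real.rpow_add hZ0, ← Real.rpow_add hZ0]
    congr 1
    ring
  have key : ∀ A : Finset O, ∑ k ∈ A, gw K k * ‖CC ψ a R k‖ ^ 2 ≤
      (24 * C₁ ^ 2 + 2 * C₂ ^ 2 * C₃) * Z ^ ε * B := by
    intro A
    have g1 : ∑ k ∈ A, gw K k ≤ 12 * (Z ^ ε * B) := by
      have := ((summable_gw hK0).sum_le_tsum A fun k _ => (gw_pos K k).le).trans (tsum_gw_le hK0)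
      have : B ≤ Z ^ ε * B := le_mul_of_one_le_left hB0 hZ1
      linarith
    have g2 : ∀ f ∈ S, ∑ k ∈ A, gw K k * ‖CCf ψ a R f k‖ ^ 2 / w f ≤
        C₃ * Z ^ (ε / 2) * B * w f := by
      intro f hf
      obtain ⟨x, y, -⟩ := mem_SF.1 hf
      rw [← Finset.sum_div, div_le_iff₀ (hwp f hf)]
      refine (h₃ ψ Z K R f A hψ hK hKZ hR hRZ y x).trans_eq ?_
      have : w f * w f = (nm f)⁻¹ := by
        simp only [hw]
        rw [← Real.rpow_add (hSp f hf), ← Real.rpow_neg_one]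
        norm_num
      rw [mul_assoc _ (w f), this, div_eq_mul_inv]
    have g3 : ∑ k ∈ A, ∑ f ∈ S, gw K k * ‖CCf ψ a R f k‖ ^ 2 / w f ≤
        C₃ * Z ^ (ε / 2) * B * (C₂ * Z ^ (ε / 4)) := by
      rw [Finset.sum_comm]
      refine (Finset.sum_le_sum g2).trans ?_
      rw [← Finset.mul_sum]
      exact mul_le_mul_of_nonneg_left hW (by positivity)
    have g4 : 0 ≤ ∑ k ∈ A, ∑ f ∈ S, gw K k * ‖CCf ψ a R f k‖ ^ 2 / w f :=
      Finset.sum_nonneg fun k _ => Finset.sum_nonneg fun f hf =>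
        div_nonneg (mul_nonneg (gw_pos _ _).le (sq_nonneg _)) (hwp f hf).le
    refine (Finset.sum_le_sum fun k _ => hpt k).trans ?_
    rw [Finset.sum_add_distrib, ← Finset.mul_sum, ← Finset.mul_sum]
    have g5 : 2 * (∑ f ∈ S, w f) * ∑ k ∈ A, ∑ f ∈ S, gw K k * ‖CCf ψ a R f k‖ ^ 2 / w f ≤
        2 * (C₂ * Z ^ (ε / 4)) * (C₃ * Z ^ (ε / 2) * B * (C₂ * Z ^ (ε / 4))) :=
      mul_le_mul (by linarith) g3 g4 (by positivity)
    have g6 : 2 * C₁ ^ 2 * ∑ k ∈ A, gw K k ≤ 2 * C₁ ^ 2 * (12 * (Z ^ ε * B)) :=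
      mul_le_mul_of_nonneg_left g1 (by positivity)
    refine (add_le_add g6 g5).trans_eq ?_
    rw [← hZe]
    ring
  have hnn : ∀ k, 0 ≤ gw K k * ‖CC ψ a R k‖ ^ 2 := fun k =>
    mul_nonneg (gw_pos _ _).le (sq_nonneg _)
  exact ⟨summable_of_sum_le hnn key, Real.tsum_le_of_sum_le hnn key⟩

end Crest.Agent.R17
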