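import Crest.Agent.R17.P.Glue

/-!
Row 17, block P: long Möbius sums by sixth-power amplification.
-/

set_option autoImplicit false

namespace Crest.Agent.R17

open scoped ComplexConjugate

/-- `AdmP.amp` for `n ↦ mu n ψ n LN …` (`admP_LN`), `mu_mul'`, `LN_mul_arg` -/
theorem MS_amp {q : O} {ψ : O → ℂ} (hq : Lev q) (hψ : IsTw q ψ) {a N : ℝ} (ha : 0 < a) (hN : 0 < N)
    (t : ℝ) {l : O} (hl : Prime l) (hl' : Prim l) (u : O) :
    MS (rc ψ u) a N t =
      MS (rc ψ (u * l ^ 6)) a N t - ψ l * sx u l * MS (rc ψ (u * l ^ 6)) a (N / nm l) t := by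
  have hadm : AdmP fun n => mu n * ψ n * LN a N t (nm n) := by
    refine admP_LN (c := fun n => mu n * ψ n) (M := 1) (θ := 0) ha hN t (fun n _ h => ?_)
      fun n _ => ?_
    · obtain ⟨h1, h2⟩ := mul_ne_zero_iff.1 h
      exact ⟨not_not.1 (mt mu_eq_zero.2 h1), hq.coprime_two (hψ.ne_zero.1 h2)⟩
    · rw [norm_mul, Real.rpow_zero, mul_one]
      exact mul_le_one₀ (norm_mu_le n) (norm_nonneg _) (hψ.norm_le hq.1 n)
  have h1 : ∀ k, MS (rc ψ k) a N t = Sp false (fun n => mu n * ψ n * LN a N t (nm n)) k := by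
    intro k
    simp only [MS, Sp, rc, sj_false]
    exact tsum_congr fun n => by ring
  have h2 : Sp false (fun m => mu (l * m) * ψ (l * m) * LN a N t (nm (l * m))) (u * l ^ 6) =
      -ψ l * MS (rc ψ (u * l ^ 6)) a (N / nm l) t := by
    simp only [MS, Sp, rc, sj_false]
    rw [← tsum_mul_left]
    refine tsum_congr fun m => ?_
    by_cases hc : IsCoprime l (m : O)
    · rw [mu_mul hc, mu_prime hl, hψ.mul, nm_mul, LN_mul_arg]
      ring
    · have : sx (u * l ^ 6) m = 0 := sx_eq_zero_of_not_coprime fun h =>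
        hc ((IsCoprime.pow_left_iff (by norm_num)).1 h.of_mul_left_right)
      rw [this]
      ring
  rw [h1 u, hadm.amp false hl hl' u, ← h1, h2, sj_false]
  ring

/-- the map `(u, l) ↦ u l⁶` has divisor multiplicity (`Finset.sum_fiberwise_of_maps_to`,
`card_pdiv_le`) -/
theorem sum_amp_le {ε : ℝ} (hε : 0 < ε) : ∃ C : ℝ, 0 < C ∧ ∀ (A S : Finset O) (N : ℝ) (F : O → ℝ),
    (∀ k, 0 ≤ F k) → (∀ u ∈ A, u ≠ 0) → (∀ l ∈ S, Prim l) →
    (∀ u ∈ A, ∀ l ∈ S, nm (u * l ^ 6) ≤ N) →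
    ∑ p ∈ A ×ˢ S, F (p.1 * p.2 ^ 6) ≤ C * N ^ ε * ∑ k ∈ rows N, F k := by
  classical
  obtain ⟨C, hC, h⟩ := card_pdiv_le hε
  refine ⟨C, hC, fun A S N F hF hA hS hN => ?_⟩
  have hmap : ∀ p ∈ A ×ˢ S, p.1 * p.2 ^ 6 ∈ rows N := fun p hp => by
    obtain ⟨h1, h2⟩ := Finset.mem_product.1 hp
    exact mem_rows.2 ⟨mul_ne_zero (hA _ h1) (pow_ne_zero _ (hS _ h2).ne_zero), hN _ h1 _ h2⟩
  rw [← Finset.sum_fiberwise_of_maps_to hmap, Finset.mul_sum]
  refine Finset.sum_le_sum fun k hk => ?_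
  obtain ⟨hk0, hkN⟩ := mem_rows.1 hk
  rw [Finset.sum_congr rfl (g := fun _ => F k) fun p hp => by rw [(Finset.mem_filter.1 hp).2],
    Finset.sum_const, nsmul_eq_mul]
  refine mul_le_mul_of_nonneg_right ?_ (hF k)
  have hcard : ((A ×ˢ S).filter fun p => p.1 * p.2 ^ 6 = k).card ≤ (pdiv k).card := by
    refine Finset.card_le_card_of_injOn Prod.snd (fun p hp => ?_) fun p hp p' hp' he => ?_
    · obtain ⟨h1, h2⟩ := Finset.mem_filter.1 hp
      refine (mem_pdiv hk0).2 ⟨hS _ (Finset.mem_product.1 h1).2, ?_⟩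
      rw [← h2]
      exact (dvd_pow_self _ (by norm_num)).mul_left _
    · obtain ⟨h1, h2⟩ := Finset.mem_filter.1 hp
      obtain ⟨-, h2'⟩ := Finset.mem_filter.1 hp'
      refine Prod.ext ?_ he
      rw [← h2', ← he] at h2
      exact mul_right_cancel₀ (pow_ne_zero _ (hS _ (Finset.mem_product.1 h1).2).ne_zero) h2
  calc (((A ×ˢ S).filter fun p => p.1 * p.2 ^ 6 = k).card : ℝ) ≤ (pdiv k).card := by
        exact_mod_cast hcard
    _ ≤ C * nm k ^ ε := h k hk0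
    _ ≤ C * N ^ ε := by gcongr; exact nm_nonneg k

/-- `StM1` with `j = 0`, `P = 1`, `Ps = ∅` -/
theorem StM1.zero (h : StM1) {q : O} (hq : Lev q) {a ε : ℝ} (ha : 0 < a) (hε : 0 < ε) :
    ∃ C : ℝ, 0 < C ∧ ∀ (ψ : O → ℂ) (Z U N t : ℝ) (A : Finset O), IsTw q ψ → 1 ≤ N → N ≤ U → U ≤ Z →
      (∀ k ∈ A, nm k ≤ U) →
      ∑ k ∈ A, ‖MS (rc ψ k) a N t‖ ^ 2 ≤ C * Z ^ ε * (1 + |t|) ^ C * (U * N) := by
  obtain ⟨C₀, h⟩ := h
  obtain ⟨C, hC⟩ := h q a ε 0 hq ha hε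
  refine ⟨max C 1, by positivity, fun ψ Z U N t A hψ hN hNU hUZ hA => ?_⟩
  have key := hC ψ Z U N 1 t ∅ A (fun i => i.elim0) hψ hN le_rfl (by simpa using hNU)
    (by simpa using hN.trans hNU) hUZ (by simp) (fun i => i.elim0) hA
  simp only [Finset.univ_eq_empty, Finset.prod_empty, mul_one, Real.one_rpow, pow_zero] at key
  refine key.trans ?_
  have hZ : 0 ≤ Z := by linarith
  have hU : 0 ≤ U := by linarith
  have h1 : (1 + |t|) ^ C ≤ (1 + |t|) ^ max C 1 :=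
    Real.rpow_le_rpow_of_exponent_le (by linarith [abs_nonneg t]) (le_max_left _ _)
  gcongr
  exact le_max_left _ _

/-- `Y = (N / U)^(1/6)`, `N² / Y = N^(11/6) U^(1/6)`.  If `Y / 2 < max P₀ 2` use `StM1.zero` with `U := N`.
Otherwise `exists_many_primes` with `P = Y / 2` (no coprimality to `q` is needed), average `MS_amp`
over `l ∈ S`; first term `sum_amp_le`, `StM1.zero`; second term `sum_twist` (`κ = O × O`, width `2 a`,
common centre `N / Y ≥ 1`, `D = log 2`, `T = 0`; `MS_eq_SS`, `adm_Pr`), `sum_amp_le`, `StM1.zero`;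
`log P ≤ C Z^ε` (`one_add_log_rpow_le`). -/
theorem stM1L (h : StM1) : StM1L := by
  intro q a ε hq ha hε
  have hε' : 0 < ε / 3 := by positivity
  obtain ⟨C₁, hC₁, h₁⟩ := h.zero hq ha hε'
  obtain ⟨C₂, hC₂, h₂⟩ := h.zero hq (a := 2 * a) (by positivity) hε'
  obtain ⟨Ca, hCa, hamp⟩ := sum_amp_le hε'
  obtain ⟨Ct, hCt, htw⟩ := sum_twist ha (b := 2 * a) (by linarith) hC₂.le (Real.log 2)
  obtain ⟨Cl, hCl, hlog⟩ := one_add_log_rpow_le 1 hε'
  obtain ⟨c, hc, P₀, hP⟩ := exists_many_primes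
  set P₁ : ℝ := max P₀ 2 with hP₁
  have hP₁0 : 0 < P₁ := lt_max_of_lt_right two_pos
  set K : ℝ := 4 * Cl * Ca / c * (C₁ + Ct * C₂) with hK
  have hK0 : 0 < K := by positivity
  refine ⟨C₁ + C₂ + 2 * P₁ * C₁ + K, fun ψ Z U N t A hψ hU hUN hNZ hA => ?_⟩
  set C : ℝ := C₁ + C₂ + 2 * P₁ * C₁ + K with hCdef
  have hPC : 0 < 2 * P₁ * C₁ := by positivity
  have hN : 1 ≤ N := hU.trans hUN
  have hZ : 1 ≤ Z := hN.trans hNZ
  have hU0 : 0 < U := by linarith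
  have hN0 : 0 < N := by linarith
  set Y : ℝ := (N / U) ^ (1 / 6 : ℝ) with hY
  have hNU : 1 ≤ N / U := (one_le_div hU0).2 hUN
  have hY1 : 1 ≤ Y := Real.one_le_rpow hNU (by norm_num)
  have hY0 : 0 < Y := by linarith
  have hY6 : Y ^ 6 = N / U := by
    rw [hY, ← Real.rpow_natCast, ← Real.rpow_mul (by positivity)]
    norm_num
  have hYN : Y ≤ N := by
    calc Y ≤ Y ^ 6 := le_self_pow₀ hY1 (by norm_num)
      _ = N / U := hY6
      _ ≤ N := div_le_self hN0.le hU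
  set R : ℝ := N ^ (11 / 6 : ℝ) * U ^ (1 / 6 : ℝ) with hR
  have hR0 : 0 < R := by positivity
  have hYR : N * N = Y * R := by
    have e1 : N ^ (1 / 6 : ℝ) * N ^ (11 / 6 : ℝ) = N * N := by
      rw [← Real.rpow_add hN0, ← sq, ← Real.rpow_natCast]
      norm_num
    have e2 : 0 < U ^ (1 / 6 : ℝ) := by positivity
    rw [hY, hR, Real.div_rpow hN0.le hU0.le, ← e1]
    field_simp
  set z : ℝ := Z ^ (ε / 3) with hz
  have hz1 : 1 ≤ z := Real.one_le_rpow hZ hε'.le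
  have hz3 : Z ^ ε = z * z * z := by
    rw [hz, ← Real.rpow_add (by linarith), ← Real.rpow_add (by linarith)]
    congr 1
    ring
  have hNz : N ^ (ε / 3) ≤ z := Real.rpow_le_rpow hN0.le hNZ hε'.le
  set W : ℝ := (1 + |t|) ^ C with hW
  have ht1 : 1 ≤ 1 + |t| := by linarith [abs_nonneg t]
  have hW1 : (1 + |t|) ^ C₁ ≤ W := Real.rpow_le_rpow_of_exponent_le ht1 (by linarith)
  have hW2 : (1 + |t|) ^ C₂ ≤ W := Real.rpow_le_rpow_of_exponent_le ht1 (by linarith)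
  have hW0 : 0 < W := by positivity
  rw [hz3]
  rcases lt_or_ge (Y / 2) P₁ with hs | hl
  · refine (h₁ ψ Z N N t A hψ hN le_rfl hNZ fun k hk => (hA k hk).2.trans hUN).trans ?_
    rw [hYR]
    have e1 : z ≤ z * z * z := by nlinarith [mul_le_mul hz1 hz1 zero_le_one (by linarith : 0 ≤ z)]
    calc C₁ * z * (1 + |t|) ^ C₁ * (Y * R) ≤ C₁ * (z * z * z) * W * (2 * P₁ * R) := by
          gcongr
          linarith
      _ = 2 * P₁ * C₁ * (z * z * z) * W * R := by ring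
      _ ≤ C * (z * z * z) * W * R := by
          gcongr
          linarith
  obtain ⟨S, hS, hcard⟩ := hP (Y / 2) ((le_max_left _ _).trans hl)
  have hY2 : 2 ≤ Y / 2 := (le_max_right _ _).trans hl
  have hlog0 : 0 < Real.log (Y / 2) := Real.log_pos (by linarith)
  have hlogz : Real.log (Y / 2) ≤ Cl * z := by
    have := hlog Z hZ
    rw [Real.rpow_one] at this
    have h3 : Real.log (Y / 2) ≤ Real.log Z := Real.log_le_log (by positivity) (by linarith)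
    linarith
  have hrow : ∀ u ∈ A, ∀ l ∈ S, nm (u * l ^ 6) ≤ N := fun u hu l hl => by
    have h3 : nm l ≤ Y := by linarith [(hS l hl).2.2.2]
    rw [nm_mul, nm_pow]
    calc nm u * nm l ^ 6 ≤ U * Y ^ 6 :=
          mul_le_mul (hA u hu).2 (pow_le_pow_left₀ (nm_nonneg l) h3 6)
            (pow_nonneg (nm_nonneg l) 6) hU0.le
      _ = N := by rw [hY6]; field_simp
  have hamp' := fun (F : O → ℝ) (hF : ∀ k, 0 ≤ F k) =>
    hamp A S N F hF (fun u hu => (hA u hu).1) (fun l hl => (hS l hl).2.1) hrow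
  have hT₁ : ∑ p ∈ A ×ˢ S, ‖MS (rc ψ (p.1 * p.2 ^ 6)) a N t‖ ^ 2 ≤
      Ca * z * (C₁ * z * W * (N * N)) := by
    refine (hamp' (fun k => ‖MS (rc ψ k) a N t‖ ^ 2) fun k => by positivity).trans ?_
    have := h₁ ψ Z N N t (rows N) hψ hN le_rfl hNZ fun k hk => (mem_rows.1 hk).2
    calc Ca * N ^ (ε / 3) * ∑ k ∈ rows N, ‖MS (rc ψ k) a N t‖ ^ 2
        ≤ Ca * z * (C₁ * z * (1 + |t|) ^ C₁ * (N * N)) := by gcongr
      _ ≤ _ := by gcongr
  have hNY : 1 ≤ N / Y := (one_le_div hY0).2 hYN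
  have hNY' : N / Y ≤ N := div_le_self hN0.le hY1
  have hT₂ : ∑ p ∈ A ×ˢ S, ‖MS (rc ψ (p.1 * p.2 ^ 6)) a (N / nm p.2) t‖ ^ 2 ≤
      Ct * (Ca * z * (C₂ * z * (N * N))) * W := by
    have key := htw (A ×ˢ S) (fun _ => 1)
      (fun p (n : Pr) => mu n * rc ψ (p.1 * p.2 ^ 6) n) (fun _ n => nm n) (fun _ => 2)
      (fun p => N / nm p.2) (fun _ => t) (N / Y) t 0 (Ca * z * (C₂ * z * (N * N)))
      (by positivity) le_rfl (fun p hp => ?_) fun τ => ?_
    · simp only [one_mul, add_zero, mul_one, ← MS_eq_SS] at key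
      refine key.trans ?_
      gcongr
    · obtain ⟨-, h4, h5, h6⟩ := hS _ (Finset.mem_product.1 hp).2
      have h7 : 0 < nm p.2 := nm_pos h4.ne_zero
      refine ⟨zero_le_one, adm_Pr (M := 1) one_lt_two fun n => ?_, by positivity, ?_, by simp⟩
      · rw [norm_mul, rc, norm_mul]
        exact mul_le_one₀ (norm_mu_le _) (by positivity)
          (mul_le_one₀ (hψ.norm_le hq.1 _) (norm_nonneg _) (norm_sx_le _ _))
      · have e1 : N / nm p.2 / (N / Y) = Y / nm p.2 := by field_simp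
        rw [e1, abs_of_nonneg (Real.log_nonneg ((one_le_div h7).2 (by linarith)))]
        exact Real.log_le_log (by positivity) ((div_le_iff₀ h7).2 (by linarith))
    · simp only [one_mul, ← MS_eq_SS]
      refine (hamp' (fun k => ‖MS (rc ψ k) (2 * a) (N / Y) τ‖ ^ 2) fun k => by positivity).trans ?_
      have := h₂ ψ Z N (N / Y) τ (rows N) hψ hNY hNY' hNZ fun k hk => (mem_rows.1 hk).2
      calc Ca * N ^ (ε / 3) * ∑ k ∈ rows N, ‖MS (rc ψ k) (2 * a) (N / Y) τ‖ ^ 2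
          ≤ Ca * z * (C₂ * z * (1 + |τ|) ^ C₂ * (N * (N / Y))) := by gcongr
        _ ≤ Ca * z * (C₂ * z * (1 + |τ|) ^ C₂ * (N * N)) := by gcongr
        _ = _ := by ring
  set E : ℝ := ∑ k ∈ A, ‖MS (rc ψ k) a N t‖ ^ 2 with hE
  have hE0 : 0 ≤ E := Finset.sum_nonneg fun k _ => by positivity
  have hsum : S.card * E ≤ 2 * (Ca * z * (C₁ * z * W * (N * N))) +
      2 * (Ct * (Ca * z * (C₂ * z * (N * N))) * W) := by
    have e1 : S.card * E = ∑ p ∈ A ×ˢ S, ‖MS (rc ψ p.1) a N t‖ ^ 2 := by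
      rw [Finset.sum_product, hE, Finset.mul_sum]
      simp
    have e2 : ∀ p ∈ A ×ˢ S, ‖MS (rc ψ p.1) a N t‖ ^ 2 ≤
        2 * ‖MS (rc ψ (p.1 * p.2 ^ 6)) a N t‖ ^ 2 +
          2 * ‖MS (rc ψ (p.1 * p.2 ^ 6)) a (N / nm p.2) t‖ ^ 2 := fun p hp => by
      obtain ⟨h3, h4, -, -⟩ := hS _ (Finset.mem_product.1 hp).2
      have h5 : ‖MS (rc ψ p.1) a N t‖ ≤ ‖MS (rc ψ (p.1 * p.2 ^ 6)) a N t‖ +
          ‖MS (rc ψ (p.1 * p.2 ^ 6)) a (N / nm p.2) t‖ := by
        rw [MS_amp hq hψ ha hN0 t h3 h4 p.1]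
        refine (norm_sub_le _ _).trans (add_le_add le_rfl ?_)
        rw [norm_mul, norm_mul]
        exact mul_le_of_le_one_left (norm_nonneg _)
          (mul_le_one₀ (hψ.norm_le hq.1 _) (norm_nonneg _) (norm_sx_le _ _))
      have h6 := pow_le_pow_left₀ (norm_nonneg _) h5 2
      nlinarith [sq_nonneg (‖MS (rc ψ (p.1 * p.2 ^ 6)) a N t‖ -
        ‖MS (rc ψ (p.1 * p.2 ^ 6)) a (N / nm p.2) t‖)]
    rw [e1]
    refine (Finset.sum_le_sum e2).trans ?_
    rw [Finset.sum_add_distrib, ← Finset.mul_sum, ← Finset.mul_sum]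
    linarith
  have hcard' : c * (Y / 2) / (Cl * z) ≤ S.card :=
    (div_le_div_of_nonneg_left (by positivity) hlog0 hlogz).trans hcard
  have e3 : c * (Y / 2) / (Cl * z) * E ≤ c * (Y / 2) / (Cl * z) * (K * (z * z * z) * W * R) := by
    refine ((mul_le_mul_of_nonneg_right hcard' hE0).trans hsum).trans (le_of_eq ?_)
    rw [hYR, hK]
    field_simp
    ring
  refine (le_of_mul_le_mul_left e3 (by positivity)).trans ?_
  gcongr
  linarith

end Crest.Agent.R17
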