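import Crest.Agent.R17.P.PairB

/-!
Row 17, block P: from the pairs of columns to the energy.
-/

set_option autoImplicit false

namespace Crest.Agent.R17

open scoped ComplexConjugate

theorem Corea_prod {f g : Pr → ℝ} (hf : Summable f) (hg : Summable g) (hf0 : ∀ n, 0 ≤ f n)
    (hg0 : ∀ n, 0 ≤ g n) : HasSum (fun p : Pr × Pr => f p.1 * g p.2) ((∑' n, f n) * ∑' n, g n) :=
  hf.hasSum.mul hg.hasSum (hf.mul_of_nonneg hg hf0 hg0)

theorem Corea_norm_le {a : O → ℂ} (ha : AdmP a) {G : O → O → ℂ} {B : O → O → ℝ}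
    (hG : ∀ n n', Osq n → Osq n' → ‖G n n'‖ ≤ B n n') (p : Pr × Pr) :
    ‖a p.1 * conj (a p.2) * G p.1 p.2‖ ≤ ‖a p.1‖ * ‖a p.2‖ * B p.1 p.2 := by
  rw [norm_mul, norm_mul, Complex.norm_conj]
  by_cases h1 : a p.1 = 0
  · simp [h1]
  by_cases h2 : a p.2 = 0
  · simp [h2]
  exact mul_le_mul_of_nonneg_left (hG _ _ (ha.osq p.1.2 h1) (ha.osq p.2.2 h2)) (by positivity)

theorem AdmP.summable_pair {a : O → ℂ} (ha : AdmP a) {G : O → O → ℂ} {B : ℝ}
    (hG : ∀ n n', Osq n → Osq n' → ‖G n n'‖ ≤ B) :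
    Summable fun p : Pr × Pr => a p.1 * conj (a p.2) * G p.1 p.2 :=
  Summable.of_norm_bounded ((Corea_prod ha.summable_norm ha.summable_norm (fun _ => norm_nonneg _)
    (fun _ => norm_nonneg _)).summable.mul_right B) (Corea_norm_le ha (B := fun _ _ => B) hG)

theorem Corea_term (K : ℝ) (k n n' : O) : ‖sx k n * conj (sx k n') * (gw K k : ℝ)‖ ≤ gw K k := by
  rw [norm_mul, norm_mul, Complex.norm_conj, Complex.norm_real, Real.norm_of_nonneg (gw_pos K k).le]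
  exact mul_le_of_le_one_left (gw_pos K k).le
    (mul_le_one₀ (norm_sx_le _ _) (norm_nonneg _) (norm_sx_le _ _))

theorem norm_Phi_le {K : ℝ} (hK : 0 < K) (n n' : O) : ‖Phi K n n'‖ ≤ 1 + 11 * K :=
  (tsum_of_norm_bounded (summable_gw hK).hasSum fun k => Corea_term K k n n').trans (tsum_gw_le hK)

/-- `‖z‖² = z conj z`, `Summable.tsum_mul_tsum`, `Summable.tsum_comm` -/
theorem En_eq {a : O → ℂ} (ha : AdmP a) {K : ℝ} (hK : 0 < K) :
    (En false a K : ℂ) = ∑' p : Pr × Pr, a p.1 * conj (a p.2) * Phi K p.1 p.2 := by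
  have hn : ∀ k : O, Summable fun n : Pr => ‖a n * sx k n‖ := fun k =>
    Summable.of_nonneg_of_le (fun _ => norm_nonneg _) (fun n => by
      rw [norm_mul]
      exact mul_le_of_le_one_right (norm_nonneg _) (norm_sx_le _ _)) ha.summable_norm
  have h1 : ∀ k : O, ((gw K k * ‖Sp false a k‖ ^ 2 : ℝ) : ℂ) =
      ∑' p : Pr × Pr, a p.1 * conj (a p.2) * (sx k p.1 * conj (sx k p.2) * (gw K k : ℝ)) := fun k => by
    have e1 : conj (Sp false a k) = ∑' n : Pr, conj (a n * sx k n) := Complex.conj_tsum _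
    have e2 : Sp false a k = ∑' n : Pr, a n * sx k n := rfl
    rw [Complex.ofReal_mul, Complex.ofReal_pow, ← Complex.mul_conj', e1, e2,
      tsum_mul_tsum_of_summable_norm (hn k) (by simpa only [Complex.norm_conj] using hn k),
      ← tsum_mul_left]
    refine tsum_congr fun p => ?_
    rw [map_mul]
    ring
  have h2 : Summable fun x : O × (Pr × Pr) =>
      a x.2.1 * conj (a x.2.2) * (sx x.1 x.2.1 * conj (sx x.1 x.2.2) * (gw K x.1 : ℝ)) := by
    refine Summable.of_norm_bounded ((summable_gw hK).mul_of_nonneg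
      (Corea_prod ha.summable_norm ha.summable_norm (fun _ => norm_nonneg _)
        (fun _ => norm_nonneg _)).summable (fun k => (gw_pos K k).le)
      (fun p => mul_nonneg (norm_nonneg _) (norm_nonneg _))) fun x => ?_
    rw [norm_mul, norm_mul, Complex.norm_conj, mul_comm (gw K x.1)]
    exact mul_le_mul_of_nonneg_left (Corea_term K _ _ _) (by positivity)
  rw [En, Complex.ofReal_tsum, tsum_congr h1, ← Summable.tsum_comm (f := fun (k : O) (p : Pr × Pr) =>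
    a p.1 * conj (a p.2) * (sx k p.1 * conj (sx k p.2) * (gw K k : ℝ))) h2]
  exact tsum_congr fun p => tsum_mul_left

open Classical in
/-- `tsum_Pr_dvd` in both variables (`Function.Injective.tsum_eq` on `Pr × Pr`) -/
theorem tsum_pair_dvd {d : O} (hd : Prim d) (G : O → O → ℂ) :
    (∑' p : Pr × Pr, if d ∣ (p.1 : O) ∧ d ∣ (p.2 : O) then G p.1 p.2 else 0) =
      ∑' p : Pr × Pr, G (d * p.1) (d * p.2) := by
  have hi : Function.Injective
      fun m : Pr × Pr => ((⟨d, hd⟩ * m.1, ⟨d, hd⟩ * m.2) : Pr × Pr) := fun m m' h =>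
    Prod.ext (Subtype.ext (mul_left_cancel₀ hd.ne_zero (congrArg (fun x : Pr × Pr => (x.1 : O)) h)))
      (Subtype.ext (mul_left_cancel₀ hd.ne_zero (congrArg (fun x : Pr × Pr => (x.2 : O)) h)))
  rw [← hi.tsum_eq
    (f := fun p : Pr × Pr => if d ∣ (p.1 : O) ∧ d ∣ (p.2 : O) then G p.1 p.2 else 0)]
  · exact tsum_congr fun m => if_pos ⟨dvd_mul_right _ _, dvd_mul_right _ _⟩
  · intro n hn
    by_cases h : d ∣ (n.1 : O) ∧ d ∣ (n.2 : O)
    · obtain ⟨m, hm, h1⟩ := hd.exists_mul n.1.2 h.1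
      obtain ⟨m', hm', h2⟩ := hd.exists_mul n.2.2 h.2
      exact ⟨(⟨m, hm⟩, ⟨m', hm'⟩), Prod.ext (Subtype.ext h1.symm) (Subtype.ext h2.symm)⟩
    · exact absurd (if_neg h) hn

theorem Coreb_osq {e f j m : O} (he : Prim e) (hf : Prim f) (h : Osq (e * f * j * m)) :
    Osq (j * m) :=
  Osq.right (a := e * f) (by rwa [← mul_assoc]) (he.mul hf)

theorem Coreb_Tm_le {L : ℝ} (hL : 0 < L) (e h : O) {n₁ n₂ : O} (h₁ : Osq n₁) (h₂ : Osq n₂) :
    ‖Tm L e h n₁ n₂‖ ≤ 1 := by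
  refine (norm_Tm_le L e h h₁ h₂).trans ?_
  have a1 := one_le_nm h₁.1.ne_zero
  have a2 := one_le_nm h₂.1.ne_zero
  have b1 : 1 ≤ Real.sqrt (nm n₁) := Real.one_le_sqrt.2 a1
  have b2 : 1 ≤ Real.sqrt (nm n₂) := Real.one_le_sqrt.2 a2
  have c : 1 ≤ Real.sqrt (nm n₁) * Real.sqrt (nm n₂) := one_le_mul_of_one_le_of_one_le b1 b2
  rw [div_le_one (by linarith)]
  exact (gw_le_one (by positivity) h).trans c

open Classical in
/-- one term of `Mid` -/
noncomputable def Coreb_G (K : ℝ) (l : O × O × O) (h n n' : O) : ℂ :=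
  if l.1 * l.2.1 * l.2.2 ∣ n ∧ l.1 * l.2.1 * l.2.2 ∣ n' then
    mu l.1 * mu l.2.2 * (K / nm l.1 : ℝ) * Tm (K / nm l.1) l.1 h
      (l.2.2 * dv n (l.1 * l.2.1 * l.2.2)) (l.2.2 * dv n' (l.1 * l.2.1 * l.2.2))
  else 0

theorem Coreb_G_le {K : ℝ} (hK : 0 < K) {l : O × O × O} (he : Prim l.1) (hf : Prim l.2.1) (h : O)
    (n n' : O) (hn : Osq n) (hn' : Osq n') : ‖Coreb_G K l h n n'‖ ≤ K / nm l.1 := by
  have hpos : 0 < K / nm l.1 := div_pos hK (nm_pos he.ne_zero)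
  unfold Coreb_G
  split_ifs with hd
  · have h1 : Osq (l.2.2 * dv n (l.1 * l.2.1 * l.2.2)) :=
      Coreb_osq he hf (by rwa [mul_dv hd.1])
    have h2 : Osq (l.2.2 * dv n' (l.1 * l.2.1 * l.2.2)) :=
      Coreb_osq he hf (by rwa [mul_dv hd.2])
    have h3 := Coreb_Tm_le hpos l.1 h h1 h2
    rw [norm_mul, norm_mul, norm_mul, Complex.norm_real, Real.norm_of_nonneg hpos.le]
    have h4 : ‖mu l.1‖ * ‖mu l.2.2‖ ≤ 1 :=
      mul_le_one₀ (norm_mu_le _) (norm_nonneg _) (norm_mu_le _)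
    calc _ ≤ 1 * (K / nm l.1) * 1 := by gcongr
      _ = _ := by ring
  · simpa using hpos.le

theorem Coreb_term {a : O → ℂ} (ha : AdmP a) {K : ℝ} (hK : 0 < K) {l : O × O × O} {Y : ℝ}
    (hl : l ∈ Lab Y) (h : O) :
    ‖∑' p : Pr × Pr, a p.1 * conj (a p.2) * Coreb_G K l h p.1 p.2‖ ≤ K / (nm l.1 * nm l.2.2) *
        ‖∑' p : Pr × Pr, a (l.1 * l.2.1 * l.2.2 * p.1) * conj (a (l.1 * l.2.1 * l.2.2 * p.2)) *
          Tm (K / (nm l.1 * nm l.2.2 ^ 2)) (l.1 * l.2.2 ^ 2) h p.1 p.2‖ := by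
  classical
  obtain ⟨he, hf, hj, hs⟩ := mem_Lab'.1 hl
  have hd : Prim (l.1 * l.2.1 * l.2.2) := hs.1
  have hoj : Osq l.2.2 := by
    have : Osq (l.1 * l.2.1 * l.2.2) := ⟨hs.1, hs.2.1, hs.2.2.1⟩
    exact this.right (he.mul hf)
  have e1 : (∑' p : Pr × Pr, a p.1 * conj (a p.2) * Coreb_G K l h p.1 p.2) =
      ∑' p : Pr × Pr, (fun n n' => a n * conj (a n') * Coreb_G K l h n n')
        (l.1 * l.2.1 * l.2.2 * p.1) (l.1 * l.2.1 * l.2.2 * p.2) := by
    rw [← tsum_pair_dvd hd fun n n' => a n * conj (a n') * Coreb_G K l h n n']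
    refine tsum_congr fun p => ?_
    split_ifs with hp
    · rfl
    · simp [Coreb_G, hp]
  rw [e1]
  have e2 : (∑' p : Pr × Pr, (fun n n' => a n * conj (a n') * Coreb_G K l h n n')
        (l.1 * l.2.1 * l.2.2 * p.1) (l.1 * l.2.1 * l.2.2 * p.2)) =
      (mu l.1 * mu l.2.2 * (K / nm l.1 : ℝ) * ((‖bet l.1 h l.2.2‖ ^ 2 : ℝ) : ℂ)) *
      ∑' p : Pr × Pr, a (l.1 * l.2.1 * l.2.2 * p.1) * conj (a (l.1 * l.2.1 * l.2.2 * p.2)) *
          Tm (K / (nm l.1 * nm l.2.2 ^ 2)) (l.1 * l.2.2 ^ 2) h p.1 p.2 := by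
    rw [← tsum_mul_left]
    refine tsum_congr fun p => ?_
    by_cases h1 : a (l.1 * l.2.1 * l.2.2 * p.1) = 0
    · simp [h1]
    by_cases h2 : a (l.1 * l.2.1 * l.2.2 * p.2) = 0
    · simp [h2]
    have o1 := Coreb_osq he hf (ha.osq (hd.mul p.1.2) h1)
    have o2 := Coreb_osq he hf (ha.osq (hd.mul p.2.2) h2)
    simp only [Coreb_G, dvd_mul_right, and_self, if_true, dv_mul hd.ne_zero]
    rw [Tm_mul _ _ _ hj o1 o2, div_div]
    ring
  rw [e2, norm_mul]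
  refine mul_le_mul_of_nonneg_right ?_ (norm_nonneg _)
  have hpos : 0 < K / nm l.1 := div_pos hK (nm_pos he.ne_zero)
  have hjp : 0 < nm l.2.2 := nm_pos hj.ne_zero
  rw [norm_mul, norm_mul, norm_mul, Complex.norm_real, Complex.norm_real,
    Real.norm_of_nonneg hpos.le, Real.norm_of_nonneg (sq_nonneg _)]
  have h4 : ‖mu l.1‖ * ‖mu l.2.2‖ ≤ 1 :=
    mul_le_one₀ (norm_mu_le _) (norm_nonneg _) (norm_mu_le _)
  have h5 : ‖bet l.1 h l.2.2‖ ^ 2 ≤ 1 / nm l.2.2 := by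
    calc _ ≤ (1 / Real.sqrt (nm l.2.2)) ^ 2 := by
          gcongr
          exact norm_bet_le _ _ hoj
      _ = _ := by rw [div_pow, Real.sq_sqrt hjp.le, one_pow]
  calc _ ≤ 1 * (K / nm l.1) * (1 / nm l.2.2) := by gcongr
    _ = _ := by field_simp

/-- finite sums out (`Summable.tsum_finsetSum`), `tsum_pair_dvd`, `dv_mul`, `Tm_mul`, `norm_bet_le`,
`norm_mu_le`.  Also returns the summability. -/
theorem tsum_Mid_le {a : O → ℂ} (ha : AdmP a) {K X T : ℝ} (hK : 0 < K) :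
    Summable (fun p : Pr × Pr => a p.1 * conj (a p.2) * Mid K X T p.1 p.2) ∧
    ‖∑' p : Pr × Pr, a p.1 * conj (a p.2) * Mid K X T p.1 p.2‖ ≤
      ∑ l ∈ Lab (X * T), ∑ h ∈ rows (len K X T l), K / (nm l.1 * nm l.2.2) *
        ‖∑' p : Pr × Pr, a (l.1 * l.2.1 * l.2.2 * p.1) * conj (a (l.1 * l.2.1 * l.2.2 * p.2)) *
          Tm (K / (nm l.1 * nm l.2.2 ^ 2)) (l.1 * l.2.2 ^ 2) h p.1 p.2‖ := by
  have e0 : (fun p : Pr × Pr => a p.1 * conj (a p.2) * Mid K X T p.1 p.2) = fun p : Pr × Pr =>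
      ∑ l ∈ Lab (X * T), ∑ h ∈ rows (len K X T l),
        a p.1 * conj (a p.2) * Coreb_G K l h p.1 p.2 := by
    funext p
    simp only [Mid, Coreb_G, Finset.mul_sum]
  have hs : ∀ l ∈ Lab (X * T), ∀ h : O,
      Summable fun p : Pr × Pr => a p.1 * conj (a p.2) * Coreb_G K l h p.1 p.2 := fun l hl h =>
    ha.summable_pair (Coreb_G_le hK (mem_Lab'.1 hl).1 (mem_Lab'.1 hl).2.1 h)
  have hs' : ∀ l ∈ Lab (X * T), Summable fun p : Pr × Pr =>
      ∑ h ∈ rows (len K X T l), a p.1 * conj (a p.2) * Coreb_G K l h p.1 p.2 := fun l hl =>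
    summable_sum fun h _ => hs l hl h
  rw [e0]
  refine ⟨summable_sum hs', ?_⟩
  rw [Summable.tsum_finsetSum hs']
  refine (norm_sum_le _ _).trans (Finset.sum_le_sum fun l hl => ?_)
  rw [Summable.tsum_finsetSum fun h _ => hs l hl h]
  exact (norm_sum_le _ _).trans (Finset.sum_le_sum fun h _ => Coreb_term ha hK hl h)

/-- `En_eq`, `pair_decomp`, `tsum_Mid_le`; the diagonal gives `K * l2 a`, the rest is a product
(`AdmP.summable_tail`, `Summable.tsum_mul_tsum`) -/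
theorem core1 (A : ℕ) (hA : 2 ≤ A) : ∃ C : ℝ, 0 < C ∧ ∀ (a : O → ℂ) (K X T : ℝ), AdmP a → 0 < K →
    0 < X → 1 ≤ T →
    En false a K ≤ K * l2 a +
      ∑ l ∈ Lab (X * T), ∑ h ∈ rows (len K X T l), K / (nm l.1 * nm l.2.2) *
        ‖∑' p : Pr × Pr, a (l.1 * l.2.1 * l.2.2 * p.1) * conj (a (l.1 * l.2.1 * l.2.2 * p.2)) *
          Tm (K / (nm l.1 * nm l.2.2 ^ 2)) (l.1 * l.2.2 ^ 2) h p.1 p.2‖ +
      C * tail A a X T := by
  classical
  obtain ⟨C, hC, hP⟩ := pair_decomp A hA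
  refine ⟨C, hC, fun a K X T ha hK hX hT => ?_⟩
  obtain ⟨hM, hM'⟩ := tsum_Mid_le (X := X) (T := T) ha hK
  have hΦ := ha.summable_pair (G := Phi K) fun n n' _ _ => norm_Phi_le hK n n'
  have ht : ∀ n : Pr, 0 ≤ ‖a n‖ * (nm n / X) ^ A := fun n =>
    mul_nonneg (norm_nonneg _) (pow_nonneg (div_nonneg (nm_nonneg _) hX.le) _)
  have d1 : HasSum (fun p : Pr × Pr => ‖a p.1‖ * ‖a p.2‖ * if (p.1 : O) = p.2 then K else 0)
      (K * l2 a) := by
    refine ((Function.Injective.hasSum_iff (g := fun n : Pr => (n, n))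
      (fun _ _ h => congrArg Prod.fst h) fun p hp => ?_).1 ?_)
    · rw [if_neg, mul_zero]
      exact fun h => hp ⟨p.1, Prod.ext rfl (Subtype.ext h)⟩
    · have e : ((fun p : Pr × Pr => ‖a p.1‖ * ‖a p.2‖ * if (p.1 : O) = p.2 then K else 0) ∘
          fun n : Pr => (n, n)) = fun n : Pr => K * ‖a n‖ ^ 2 := by
        funext n
        simp only [Function.comp, if_true]
        ring
      rw [e]
      exact ha.summable_sq.hasSum.mul_left K
  have d2 := (Corea_prod (ha.summable_tail A X) (ha.summable_tail A X) ht ht).mul_left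
    (C * (T / T ^ A * (1 + X) ^ 3))
  have d3 : ‖∑' p : Pr × Pr, a p.1 * conj (a p.2) * (Phi K p.1 p.2 - Mid K X T p.1 p.2)‖ ≤
      K * l2 a + C * tail A a X T := by
    refine (tsum_of_norm_bounded (d1.add d2) fun p => ?_).trans (le_of_eq ?_)
    · refine (Corea_norm_le ha (G := fun n n' => Phi K n n' - Mid K X T n n')
        (fun n n' hn hn' => hP K X T n n' hK hX hT hn hn') p).trans (le_of_eq ?_)
      ring
    · unfold tail
      ring
  have e : (En false a K : ℂ) = ∑' p : Pr × Pr, a p.1 * conj (a p.2) * Mid K X T p.1 p.2 +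
      ∑' p : Pr × Pr, a p.1 * conj (a p.2) * (Phi K p.1 p.2 - Mid K X T p.1 p.2) := by
    simp only [mul_sub]
    rw [hΦ.tsum_sub hM, En_eq ha hK, add_sub_cancel]
  have h1 : En false a K ≤ ‖(En false a K : ℂ)‖ := by
    rw [Complex.norm_real]
    exact le_abs_self _
  rw [e] at h1
  linarith [norm_add_le (∑' p : Pr × Pr, a p.1 * conj (a p.2) * Mid K X T p.1 p.2)
    (∑' p : Pr × Pr, a p.1 * conj (a p.2) * (Phi K p.1 p.2 - Mid K X T p.1 p.2))]

end Crest.Agent.R17
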