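import Crest.Agent.R17.A.All
import Crest.Agent.R17.B.All

/-!
Row 17, block P (owner helper20): definitions.  FROZEN.  Consumers import `Crest.Agent.R17.P.LemP`.
Labels `l = (e, f, j)`: `g = e f` (`e ∣ g` is the mask divisor), `j` is the Möbius label.
-/

set_option autoImplicit false

namespace Crest.Agent.R17

open scoped ComplexConjugate

/-- the sign: `sj false z = z`, `sj true z = conj z` -/
def sj (s : Bool) (z : ℂ) : ℂ := if s then conj z else z

@[simp] theorem sj_false (z : ℂ) : sj false z = z := rfl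
@[simp] theorem sj_true (z : ℂ) : sj true z = conj z := rfl

/-- normalised sextic Gauss sum `g̃_1(m)` -/
noncomputable def gt (m : O) : ℂ := gs 1 1 m / (Real.sqrt (nm m) : ℂ)

/-- admissible coefficients: on primary elements they live on odd squarefree ones, rapid decay -/
structure AdmP (a : O → ℂ) : Prop where
  supp : ∀ n, Prim n → a n ≠ 0 → Squarefree n ∧ IsCoprime n 2
  dec : ∀ σ : ℝ, Summable fun n : Pr => ‖a n‖ * nm n ^ σ

/-- the column sum `∑ a(n) χ_n(k)^±` -/
noncomputable def Sp (s : Bool) (a : O → ℂ) (k : O) : ℂ := ∑' n : Pr, a n * sj s (sx k n)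

/-- the energy over all rows (including `k = 0`) -/
noncomputable def En (s : Bool) (a : O → ℂ) (K : ℝ) : ℝ := ∑' k : O, gw K k * ‖Sp s a k‖ ^ 2

open Classical in
/-- non-zero rows of norm at most `H` -/
noncomputable def rows (H : ℝ) : Finset O := (ball H).filter (· ≠ 0)

theorem mem_rows {H : ℝ} {h : O} : h ∈ rows H ↔ h ≠ 0 ∧ nm h ≤ H := by
  simp [rows, and_comm]

open Classical in
/-- labels `(e, f, j)`: primary, product odd squarefree of norm at most `Y` -/
noncomputable def Lab (Y : ℝ) : Finset (O × O × O) :=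
  (ball Y ×ˢ ball Y ×ˢ ball Y).filter fun l =>
    Prim l.1 ∧ Prim l.2.1 ∧ Prim l.2.2 ∧ Sq Y (l.1 * l.2.1 * l.2.2)

theorem mem_Lab' {Y : ℝ} {l : O × O × O} :
    l ∈ Lab Y ↔ Prim l.1 ∧ Prim l.2.1 ∧ Prim l.2.2 ∧ Sq Y (l.1 * l.2.1 * l.2.2) := by
  simp only [Lab, Finset.mem_filter, Finset.mem_product, mem_ball, and_iff_right_iff_imp]
  rintro ⟨-, -, -, h, -, -, hY⟩
  exact ⟨(nm_le_of_dvd ((dvd_mul_right _ _).mul_right _) h.ne_zero).trans hY,
    (nm_le_of_dvd ((dvd_mul_left _ _).mul_right _) h.ne_zero).trans hY,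
    (nm_le_of_dvd (dvd_mul_left _ _) h.ne_zero).trans hY⟩

theorem mem_Lab {Y : ℝ} {e f j : O} :
    (e, f, j) ∈ Lab Y ↔ Prim e ∧ Prim f ∧ Prim j ∧ Sq Y (e * f * j) := mem_Lab'

/-- the dual coefficients at the label `l = (e, f, j)` -/
noncomputable def dual (s : Bool) (a ρ : O → ℂ) (z : ℂ) (l : O × O × O) (m : O) : ℂ :=
  a (l.1 * l.2.1 * l.2.2 * m) * ρ m * sj s (gt m * sx (l.1 * l.2.2 ^ 2) m) *
    (nm m : ℂ) ^ (z - 1 / 2)

/-- the child coefficients (after the second Poisson summation) -/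
noncomputable def child (b ρ : O → ℂ) (z : ℂ) (l : O × O × O) (m : O) : ℂ :=
  b (l.1 * l.2.1 * l.2.2 * m) * ρ m * (nm m : ℂ) ^ (z - 1 / 2)

/-- the prefactor `K / (N e N j) · (N e N j² / K)^σ` -/
noncomputable def pre (σ K : ℝ) (l : O × O × O) : ℝ :=
  K / (nm l.1 * nm l.2.2) * (nm l.1 * nm l.2.2 ^ 2 / K) ^ σ

/-- the dual length `T · N e (X / N g)² / K`, `g = e f` -/
noncomputable def len (K X T : ℝ) (l : O × O × O) : ℝ := T * X ^ 2 / (K * nm l.1 * nm l.2.1 ^ 2)

/-- the diagonal -/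
noncomputable def l2 (a : O → ℂ) : ℝ := ∑' n : Pr, ‖a n‖ ^ 2

/-- the (negligible) tail; use `T = Z^ε`, `A` large, `X` the length of `a` -/
noncomputable def tail (A : ℕ) (a : O → ℂ) (X T : ℝ) : ℝ :=
  T / T ^ A * (1 + X) ^ 3 * (∑' n : Pr, ‖a n‖ * (nm n / X) ^ A) ^ 2

/-! ### internal definitions -/

/-- odd primary squarefree -/
def Osq (n : O) : Prop := Prim n ∧ Squarefree n ∧ IsCoprime n 2

/-- the kernel modulo `4` -/
noncomputable def Wk (a b : O) : ℂ := eps a b * sx (-1) b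

/-- one column of the dual term -/
noncomputable def bet (e h n : O) : ℂ :=
  gt n * sx e n * conj (sx h n) / (Real.sqrt (nm n) : ℂ)

/-- the dual term -/
noncomputable def Tm (L : ℝ) (e h n₁ n₂ : O) : ℂ :=
  bet e h n₁ * conj (bet e h n₂) * Wk n₁ n₂ * (gw (nm n₁ * nm n₂ / L) h : ℝ)

/-- the row sum of a pair of columns -/
noncomputable def Phi (K : ℝ) (n n' : O) : ℂ := ∑' k : O, sx k n * conj (sx k n') * (gw K k : ℝ)

open Classical in
/-- exact quotient -/
noncomputable def dv (n d : O) : O := if h : d ∣ n then h.choose else 0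

theorem mul_dv {n d : O} (h : d ∣ n) : d * dv n d = n := by
  rw [dv, dif_pos h]
  exact h.choose_spec.symm

theorem dv_mul {d : O} (hd : d ≠ 0) (m : O) : dv (d * m) d = m :=
  mul_left_cancel₀ hd (mul_dv (dvd_mul_right d m))

open Classical in
/-- the main part of `Phi` -/
noncomputable def Mid (K X T : ℝ) (n n' : O) : ℂ :=
  ∑ l ∈ Lab (X * T), ∑ h ∈ rows (len K X T l),
    if l.1 * l.2.1 * l.2.2 ∣ n ∧ l.1 * l.2.1 * l.2.2 ∣ n' then
      mu l.1 * mu l.2.2 * (K / nm l.1 : ℝ) * Tm (K / nm l.1) l.1 h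
        (l.2.2 * dv n (l.1 * l.2.1 * l.2.2)) (l.2.2 * dv n' (l.1 * l.2.1 * l.2.2))
    else 0

/-- twisted Dirichlet polynomial -/
noncomputable def Gs (F ρ : O → ℂ) (z : ℂ) : ℂ := ∑' m : Pr, F m * ρ m * (nm m : ℂ) ^ z

open Classical in
/-- the coefficients of the Gram sum -/
noncomputable def bG (ψ : O → ℂ) (a Y : ℝ) (m : O) : ℂ :=
  if Squarefree m then ψ m * LN a Y 0 (nm m) else 0

open Classical in
/-- the part of `CC` with squarefull part `f` -/
noncomputable def CCf (ψ : O → ℂ) (a R : ℝ) (f k : O) : ℂ :=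
  ∑' s : Pr, if Squarefree (s : O) ∧ IsCoprime f s then
    ψ (f * s) * LN a R 0 (nm (f * s)) / (Real.sqrt (nm (f * s)) : ℂ) * gs 5 (-k) (f * s) else 0

open Classical in
/-- primary squarefull elements of norm at most `X` -/
noncomputable def SF (X : ℝ) : Finset O := (ball X).filter fun f => Prim f ∧ Sqfull f

theorem mem_SF {X : ℝ} {f : O} : f ∈ SF X ↔ nm f ≤ X ∧ Prim f ∧ Sqfull f := by
  simp [SF]

end Crest.Agent.R17
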