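import Crest.Agent.R17.P.Defs

/-!
Row 17, block P: elementary facts on admissible coefficients (used by M1, M2 and the block itself).
-/

set_option autoImplicit false

namespace Crest.Agent.R17

open scoped ComplexConjugate

theorem norm_sj (s : Bool) (z : ℂ) : ‖sj s z‖ = ‖z‖ := by
  cases s <;> simp

theorem sj_mul (s : Bool) (z w : ℂ) : sj s (z * w) = sj s z * sj s w := by
  cases s <;> simp

theorem Osq.left {a b : O} (h : Osq (a * b)) (ha : Prim a) : Osq a := by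
  exact ⟨ha, h.2.1.squarefree_of_dvd (dvd_mul_right a b), h.2.2.of_mul_left_left⟩

theorem Osq.right {a b : O} (h : Osq (a * b)) (ha : Prim a) : Osq b := by
  exact ⟨ha.of_mul h.1, h.2.1.squarefree_of_dvd (dvd_mul_left b a), h.2.2.of_mul_left_right⟩

theorem Osq.coprime {a b : O} (h : Osq (a * b)) : IsCoprime a b := by
  exact (squarefree_mul_iff.1 h.2.1).1.isCoprime

/-- `norm_gs` -/
theorem Osq.norm_gt {m : O} (h : Osq m) : ‖gt m‖ = 1 := by
  have h0 : 0 < Real.sqrt (nm m) := Real.sqrt_pos.2 (nm_pos h.1.ne_zero)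
  rw [gt, norm_div, norm_gs h.2.1 (h.1.coprime_six h.2.2) (by norm_num), Complex.norm_real,
    Real.norm_of_nonneg h0.le, div_self h0.ne']

theorem gt_one : gt 1 = 1 := by
  simp [gt, gs_unit 1 1 isUnit_one]

/-- `gs_one_mul` -/
theorem Osq.gt_mul {d m : O} (h : Osq (d * m)) (hd : Prim d) :
    gt (d * m) = gt d * eps d m * gt m * sx (d ^ 2) m := by
  have h₁ := h.left hd
  have h₂ := h.right hd
  rw [gt, gt, gt, gs_one_mul hd h₂.1 h₁.2.2 h₂.2.2 h.coprime, gsb_sqrt_mul,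
    sx_pow_left d m two_ne_zero]
  ring

/-- `g̃_1(d m) = g̃_1(d) · eps(d, m) · g̃_1(m) · χ_m(d²)`, `‖g̃_1(d)‖ = 1`; `m ↦ eps d m` (odd `m`) is the
character `ρ = one 4 · eps d` (`IsTw.mul_eps`) -/
theorem gt_mul {d : O} (hd : Prim d) (hd' : Squarefree d) (hd2 : IsCoprime d 2) :
    ‖gt d‖ = 1 ∧ ∃ ρ : O → ℂ, IsTw 4 ρ ∧ ∀ m, Prim m → Squarefree (d * m) → IsCoprime m 2 →
      gt (d * m) = gt d * ρ m * gt m * sx (d ^ 2) m := by
  classical
  refine ⟨Osq.norm_gt ⟨hd, hd', hd2⟩, fun n => one 4 n * eps d n,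
    (isTw_one 4).mul_eps dvd_rfl hd2, fun m hm hs hm2 => ?_⟩
  have h4 : one 4 m = 1 := if_pos (twb_four.2 hm2)
  have h : Osq (d * m) := ⟨hd.mul hm, hs, hd2.mul_left hm2⟩
  rw [h.gt_mul hd]
  simp only [h4, one_mul]

theorem AdmP.osq {a : O → ℂ} (ha : AdmP a) {n : O} (hn : Prim n) (h : a n ≠ 0) : Osq n :=
  ⟨hn, ha.supp n hn h⟩

theorem AdmP.summable_norm {a : O → ℂ} (ha : AdmP a) : Summable fun n : Pr => ‖a n‖ := by
  simpa using ha.dec 0

theorem AdmP.summable_sq {a : O → ℂ} (ha : AdmP a) : Summable fun n : Pr => ‖a n‖ ^ 2 := by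
  have h := ha.summable_norm
  refine Summable.of_nonneg_of_le (fun n => by positivity) (fun n => ?_)
    (h.mul_left (∑' n : Pr, ‖a n‖))
  rw [sq]
  exact mul_le_mul_of_nonneg_right (h.le_tsum n fun _ _ => norm_nonneg _) (norm_nonneg _)

theorem AdmP.summable_tail {a : O → ℂ} (ha : AdmP a) (A : ℕ) (X : ℝ) :
    Summable fun n : Pr => ‖a n‖ * (nm n / X) ^ A := by
  refine ((ha.dec A).mul_right (X ^ A)⁻¹).congr fun n => ?_
  rw [Real.rpow_natCast, div_pow]
  ring

/-- domination (only odd squarefree primary `n` matter for `b`) -/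
theorem AdmP.of_le {a b : O → ℂ} (ha : AdmP a) {M θ : ℝ}
    (h : ∀ n, Prim n → ‖b n‖ ≤ M * nm n ^ θ * ‖a n‖) : AdmP b := by
  refine ⟨fun n hn hb => ha.supp n hn fun h0 => hb ?_, fun σ => ?_⟩
  · have := h n hn
    rw [h0, norm_zero, mul_zero] at this
    exact norm_le_zero_iff.1 this
  · refine Summable.of_nonneg_of_le
      (fun n => mul_nonneg (norm_nonneg _) (Real.rpow_nonneg (nm_nonneg _) _)) (fun n => ?_)
      ((ha.dec (θ + σ)).mul_left M)
    rw [Real.rpow_add (nm_pos (Pr_prim n).ne_zero)]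
    calc ‖b n‖ * nm n ^ σ ≤ M * nm n ^ θ * ‖a n‖ * nm n ^ σ :=
          mul_le_mul_of_nonneg_right (h n (Pr_prim n)) (Real.rpow_nonneg (nm_nonneg _) _)
      _ = _ := by ring

theorem AdmP.comp_mul {a : O → ℂ} (ha : AdmP a) {d : O} (hd : Prim d) :
    AdmP fun m => a (d * m) := by
  refine ⟨fun n hn h => ?_, fun σ => ?_⟩
  · exact ((ha.osq (hd.mul hn) h).right hd).2
  · have hinj : Function.Injective fun m : Pr => (⟨d, hd⟩ * m : Pr) := fun m m' h =>
      Subtype.ext (mul_left_cancel₀ hd.ne_zero (congrArg Subtype.val h))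
    refine (((ha.dec σ).comp_injective hinj).mul_right (nm d ^ σ)⁻¹).congr fun m => ?_
    have h0 : nm d ^ σ ≠ 0 := (Real.rpow_pos_of_pos (nm_pos hd.ne_zero) σ).ne'
    show ‖a (d * m)‖ * nm (d * m) ^ σ * (nm d ^ σ)⁻¹ = _
    rw [nm_mul, Real.mul_rpow (nm_nonneg _) (nm_nonneg _)]
    field_simp

theorem AdmP.add {a b : O → ℂ} (ha : AdmP a) (hb : AdmP b) : AdmP fun n => a n + b n := by
  refine ⟨fun n hn h => ?_, fun σ => ?_⟩
  · by_cases h0 : a n = 0
    · exact hb.supp n hn fun h1 => h (by rw [h0, h1, add_zero])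
    · exact ha.supp n hn h0
  · refine Summable.of_nonneg_of_le
      (fun n => mul_nonneg (norm_nonneg _) (Real.rpow_nonneg (nm_nonneg _) _)) (fun n => ?_)
      ((ha.dec σ).add (hb.dec σ))
    rw [← add_mul]
    exact mul_le_mul_of_nonneg_right (norm_add_le _ _) (Real.rpow_nonneg (nm_nonneg _) _)

theorem AdmP.sum {ι : Type} (s : Finset ι) {a : ι → O → ℂ} (ha : ∀ i ∈ s, AdmP (a i)) :
    AdmP fun n => ∑ i ∈ s, a i n := by
  classical
  induction s using Finset.induction_on with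
  | empty => exact ⟨fun n _ h => absurd (Finset.sum_empty) h, fun σ => by simp⟩
  | insert i s hi ih =>
    simp only [Finset.sum_insert hi]
    exact (ha i (Finset.mem_insert_self i s)).add
      (ih fun j hj => ha j (Finset.mem_insert_of_mem hj))

theorem AdmP.child {b ρ : O → ℂ} (hb : AdmP b) (hρ : ∀ m, ‖ρ m‖ ≤ 1) (z : ℂ) {e f j : O}
    (he : Prim e) (hf : Prim f) (hj : Prim j) : AdmP (child b ρ z (e, f, j)) := by
  refine (hb.comp_mul ((he.mul hf).mul hj)).of_le (M := 1) (θ := (z - 1 / 2).re) fun n hn => ?_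
  have h0 := nm_pos hn.ne_zero
  rw [R17.child, norm_mul, norm_mul, Complex.norm_cpow_eq_rpow_re_of_pos h0]
  have h1 := hρ n
  have h2 : 0 ≤ nm n ^ (z - 1 / 2).re := Real.rpow_nonneg h0.le _
  have h3 := norm_nonneg (b (e * f * j * n))
  calc ‖b (e * f * j * n)‖ * ‖ρ n‖ * nm n ^ (z - 1 / 2).re
      ≤ ‖b (e * f * j * n)‖ * 1 * nm n ^ (z - 1 / 2).re := by gcongr
    _ = _ := by ring

/-- Gauss-weighted coefficients -/
theorem AdmP.norm_gauss_le {b : O → ℂ} (hb : AdmP b) (v : O) {m : O} (hm : Prim m) :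
    ‖b m * gt m * sx v m‖ ≤ ‖b m‖ := by
  by_cases h : b m = 0
  · simp [h]
  rw [norm_mul, norm_mul, (hb.osq hm h).norm_gt, mul_one]
  exact mul_le_of_le_one_right (norm_nonneg _) (norm_sx_le v m)

theorem AdmP.gauss {b : O → ℂ} (hb : AdmP b) (v : O) : AdmP fun m => b m * gt m * sx v m := by
  refine hb.of_le (M := 1) (θ := 0) fun n hn => ?_
  simpa using hb.norm_gauss_le v hn

/-- log-normal coefficients (`sum_LN_O` with `θ := θ + σ`) -/
theorem admP_LN {c : O → ℂ} {M θ a Y : ℝ} (ha : 0 < a) (hY : 0 < Y) (t : ℝ)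
    (hs : ∀ n, Prim n → c n ≠ 0 → Squarefree n ∧ IsCoprime n 2)
    (hc : ∀ n, Prim n → ‖c n‖ ≤ M * nm n ^ θ) : AdmP fun n => c n * LN a Y t (nm n) := by
  refine ⟨fun n hn h => hs n hn (left_ne_zero_of_mul h), fun σ => ?_⟩
  have hM : 0 ≤ M := by
    have h1 := hc 1 prim_one
    rw [nm_one, Real.one_rpow, mul_one] at h1
    exact (norm_nonneg _).trans h1
  obtain ⟨C, -, H⟩ := sum_LN_O ha (θ + σ)
  have key := (H (ι := Pr) (fun n => (n : O)) (fun n => c n * ((nm n ^ σ : ℝ) : ℂ)) M Y t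
    Subtype.val_injective (fun n h => absurd h (Pr_prim n).ne_zero) (fun n hn => by
      have hp := nm_pos hn
      rw [norm_mul, Complex.norm_real, Real.norm_of_nonneg (by positivity), Real.rpow_add hp,
        ← mul_assoc]
      exact mul_le_mul_of_nonneg_right (hc n (Pr_prim n)) (by positivity)) hM hY).1
  refine key.congr fun n => ?_
  have hp := nm_nonneg (n : O)
  rw [norm_mul, norm_mul, norm_mul, Complex.norm_real, Real.norm_of_nonneg (by positivity)]
  ring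

theorem l2_mono {a b : O → ℂ} (ha : AdmP a) (h : ∀ n, Prim n → ‖b n‖ ≤ ‖a n‖) : l2 b ≤ l2 a := by
  have h1 : ∀ n : Pr, ‖b n‖ ^ 2 ≤ ‖a n‖ ^ 2 := fun n =>
    pow_le_pow_left₀ (norm_nonneg _) (h n (Pr_prim n)) 2
  exact (ha.summable_sq.of_nonneg_of_le (fun n => by positivity) h1).tsum_le_tsum h1
    ha.summable_sq

theorem tail_mono {a b : O → ℂ} (ha : AdmP a) (h : ∀ n, Prim n → ‖b n‖ ≤ ‖a n‖) (A : ℕ) {X T : ℝ}
    (hX : 0 < X) (hT : 0 ≤ T) : tail A b X T ≤ tail A a X T := by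
  have h0 : ∀ n : Pr, 0 ≤ ‖b n‖ * (nm n / X) ^ A := fun n => by
    have := nm_nonneg (n : O)
    positivity
  have h1 : ∀ n : Pr, ‖b n‖ * (nm n / X) ^ A ≤ ‖a n‖ * (nm n / X) ^ A := fun n => by
    have := nm_nonneg (n : O)
    exact mul_le_mul_of_nonneg_right (h n (Pr_prim n)) (by positivity)
  have h2 := ((ha.summable_tail A X).of_nonneg_of_le h0 h1).tsum_le_tsum h1 (ha.summable_tail A X)
  unfold tail
  exact mul_le_mul_of_nonneg_left (pow_le_pow_left₀ (tsum_nonneg h0) h2 2) (by positivity)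

theorem Glueb_norm_le (a : O → ℂ) (s : Bool) (k n : O) : ‖a n * sj s (sx k n)‖ ≤ ‖a n‖ := by
  rw [norm_mul, norm_sj]
  exact mul_le_of_le_one_right (norm_nonneg _) (norm_sx_le _ _)

theorem AdmP.summable {a : O → ℂ} (ha : AdmP a) (s : Bool) (k : O) :
    Summable fun n : Pr => a n * sj s (sx k n) := by
  exact ha.summable_norm.of_norm_bounded fun n => Glueb_norm_le a s k n

theorem AdmP.norm_Sp_le {a : O → ℂ} (ha : AdmP a) (s : Bool) (k : O) :
    ‖Sp s a k‖ ≤ ∑' n : Pr, ‖a n‖ := by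
  exact tsum_of_norm_bounded ha.summable_norm.hasSum fun n => Glueb_norm_le a s k n

theorem AdmP.summable_En {a : O → ℂ} (ha : AdmP a) (s : Bool) {K : ℝ} (hK : 0 < K) :
    Summable fun k : O => gw K k * ‖Sp s a k‖ ^ 2 := by
  refine ((summable_gw hK).mul_right ((∑' n : Pr, ‖a n‖) ^ 2)).of_nonneg_of_le
    (fun k => mul_nonneg (gw_pos K k).le (by positivity)) fun k => ?_
  exact mul_le_mul_of_nonneg_left (pow_le_pow_left₀ (norm_nonneg _) (ha.norm_Sp_le s k) 2)
    (gw_pos K k).le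

theorem Glueb_exp : 1 ≤ 55 * Real.exp (-4) := by
  have h1 : Real.exp 4 ≤ 55 := by
    have h2 : Real.exp 4 = Real.exp 1 ^ 4 := by
      rw [← Real.exp_nat_mul]
      norm_num
    have h3 := Real.exp_one_lt_d9
    rw [h2]
    calc Real.exp 1 ^ 4 ≤ 2.7182818286 ^ 4 := pow_le_pow_left₀ (Real.exp_pos 1).le h3.le 4
      _ ≤ 55 := by norm_num
  rw [Real.exp_neg, ← div_eq_mul_inv, le_div_iff₀ (Real.exp_pos 4), one_mul]
  exact h1

/-- sharp cut-off by the Gaussian (`le_gw`, `exp 4 < 55`) -/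
theorem AdmP.sum_le_En {a : O → ℂ} (ha : AdmP a) (s : Bool) {K : ℝ} (hK : 0 < K) (B : Finset O)
    (hB : ∀ k ∈ B, nm k ≤ K) : ∑ k ∈ B, ‖Sp s a k‖ ^ 2 ≤ 55 * En s a K := by
  have h1 : ∑ k ∈ B, gw K k * ‖Sp s a k‖ ^ 2 ≤ En s a K :=
    (ha.summable_En s hK).sum_le_tsum B fun k _ => mul_nonneg (gw_pos K k).le (by positivity)
  refine le_trans ?_ (mul_le_mul_of_nonneg_left h1 (by norm_num))
  rw [Finset.mul_sum]
  refine Finset.sum_le_sum fun k hk => ?_
  rw [← mul_assoc]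
  refine le_mul_of_one_le_left (by positivity) ?_
  have := le_gw hK (hB k hk)
  linarith [Glueb_exp]

theorem Glueb_sj_zero (s : Bool) : sj s 0 = 0 := by
  cases s <;> simp

theorem Glueb_six {p n : O} (hp : Prime p) (h6 : IsCoprime n 6) (hd : ¬ p ∣ n) (h : O) :
    sx (h * p ^ 6) n = sx h n := by
  rw [sx_mul_left, sx_pow_left _ _ (by norm_num), sx_pow_six,
    if_pos ⟨h6, hp.coprime_iff_not_dvd.2 hd⟩, mul_one]

theorem Glueb_six' {p n : O} (hp : Prime p) (hd : p ∣ n) (h : O) : sx (h * p ^ 6) n = 0 := by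
  rw [sx_mul_left, sx_pow_left _ _ (by norm_num), sx_pow_six,
    if_neg fun h' => hp.coprime_iff_not_dvd.1 h'.2 hd, mul_zero]

/-- sixth-power amplification: the rows `h` and `h p⁶` differ by the columns divisible by `p`
(`tsum_Pr_dvd`, `sx_pow_six`) -/
theorem AdmP.amp {a : O → ℂ} (ha : AdmP a) (s : Bool) {p : O} (hp : Prime p) (hp' : Prim p) (h : O) :
    Sp s a h = Sp s a (h * p ^ 6) + sj s (sx h p) * Sp s (fun m => a (p * m)) (h * p ^ 6) := by
  classical
  have h1 : ∀ n : Pr, a n * sj s (sx h n) = a n * sj s (sx (h * p ^ 6) n) +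
      (if p ∣ (n : O) then a n * sj s (sx h n) else 0) := by
    intro n
    split_ifs with hd
    · rw [Glueb_six' hp hd, Glueb_sj_zero, mul_zero, zero_add]
    · by_cases h0 : a n = 0
      · simp [h0]
      · rw [Glueb_six hp ((Pr_prim n).coprime_six (ha.supp n (Pr_prim n) h0).2) hd, add_zero]
  have h2 : Summable fun n : Pr => if p ∣ (n : O) then a n * sj s (sx h n) else 0 := by
    refine ha.summable_norm.of_norm_bounded fun n => ?_
    split_ifs
    · exact Glueb_norm_le a s h n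
    · simp
  have h3 := tsum_Pr_dvd hp' fun n => a n * sj s (sx h n)
  unfold Sp
  rw [tsum_congr h1, (ha.summable s _).tsum_add h2, ← tsum_mul_left]
  congr 1
  refine Eq.trans (by convert h3) (tsum_congr fun m => ?_)
  by_cases h0 : a (p * m) = 0
  · simp [h0]
  · obtain ⟨hsq, h2'⟩ := ha.supp _ (hp'.mul (Pr_prim m)) h0
    have hd : ¬ p ∣ (m : O) := fun hd =>
      hp.not_isUnit (hsq p (mul_dvd_mul_left p hd))
    rw [Glueb_six hp ((Pr_prim m).coprime_six h2'.of_mul_left_right) hd, sx_mul_right, sj_mul]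
    ring

theorem conj_Sp (s : Bool) (a : O → ℂ) (k : O) :
    conj (Sp s a k) = Sp (!s) (fun n => conj (a n)) k := by
  unfold Sp
  rw [Complex.conj_tsum]
  refine tsum_congr fun n => ?_
  cases s <;> simp

/-- the output of the first step is an input of the second one -/
theorem dual_false (a ρ : O → ℂ) (z : ℂ) (l : O × O × O) :
    dual false a ρ z l = fun m => child a ρ z l m * gt m * sx (l.1 * l.2.2 ^ 2) m := by
  funext m
  simp only [dual, child, sj_false]
  ring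

theorem Glueb_poly {B : ℝ} (hB : 0 ≤ B) : ∃ C : ℝ, 0 < C ∧ ∀ x : ℝ, 0 ≤ x →
    Real.exp (-x / 2) * (1 + x) ^ B ≤ C := by
  refine ⟨(2 * B + 1) ^ B, by positivity, fun x hx => ?_⟩
  have hc : 0 < 2 * B + 1 := by positivity
  have h1 : 1 + x ≤ (2 * B + 1) * Real.exp (x / (2 * B + 1)) := by
    have h2 := Real.add_one_le_exp (x / (2 * B + 1))
    calc 1 + x ≤ (2 * B + 1) * (x / (2 * B + 1) + 1) := by
          rw [mul_add, mul_div_cancel₀ _ hc.ne']
          linarith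
      _ ≤ _ := mul_le_mul_of_nonneg_left h2 hc.le
  have h3 : (1 + x) ^ B ≤ (2 * B + 1) ^ B * Real.exp (x / 2) := by
    calc (1 + x) ^ B ≤ ((2 * B + 1) * Real.exp (x / (2 * B + 1))) ^ B :=
          Real.rpow_le_rpow (by positivity) h1 hB
      _ = (2 * B + 1) ^ B * Real.exp (x / (2 * B + 1) * B) := by
          rw [Real.mul_rpow hc.le (Real.exp_pos _).le, ← Real.exp_mul]
      _ ≤ _ := by
          refine mul_le_mul_of_nonneg_left (Real.exp_le_exp.2 ?_) (by positivity)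
          rw [div_mul_eq_mul_div, div_le_div_iff₀ hc two_pos]
          nlinarith
  calc Real.exp (-x / 2) * (1 + x) ^ B
      ≤ Real.exp (-x / 2) * ((2 * B + 1) ^ B * Real.exp (x / 2)) :=
        mul_le_mul_of_nonneg_left h3 (Real.exp_pos _).le
    _ = (2 * B + 1) ^ B * (Real.exp (-x / 2) * Real.exp (x / 2)) := by ring
    _ = _ := by rw [← Real.exp_add, show -x / 2 + x / 2 = 0 by ring, Real.exp_zero, mul_one]

/-- the weight of the twist absorbs polynomial growth -/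
theorem exp_twist_le (B : ℝ) : ∃ C : ℝ, 0 < C ∧ ∀ τ t : ℝ, 0 ≤ t →
    Real.exp (-|τ| / 2) * (1 + t + |τ|) ^ B ≤ C * (1 + t) ^ B := by
  rcases le_total 0 B with hB | hB
  · obtain ⟨C, hC, H⟩ := Glueb_poly hB
    refine ⟨C, hC, fun τ t ht => ?_⟩
    have hτ := abs_nonneg τ
    have h1 : (1 + t + |τ|) ^ B ≤ (1 + |τ|) ^ B * (1 + t) ^ B := by
      rw [← Real.mul_rpow (by positivity) (by positivity)]
      exact Real.rpow_le_rpow (by positivity) (by nlinarith) hB
    calc _ ≤ Real.exp (-|τ| / 2) * ((1 + |τ|) ^ B * (1 + t) ^ B) :=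
          mul_le_mul_of_nonneg_left h1 (Real.exp_pos _).le
      _ ≤ _ := by
          rw [← mul_assoc]
          exact mul_le_mul_of_nonneg_right (H _ hτ) (by positivity)
  · refine ⟨1, one_pos, fun τ t ht => ?_⟩
    have hτ := abs_nonneg τ
    exact mul_le_mul (Real.exp_le_one_iff.2 (by linarith))
      (Real.rpow_le_rpow_of_nonpos (by positivity) (by linarith) hB) (by positivity) zero_le_one

/-- sums over labels (`summable_nm_rpow`, `Finset.sum_product`) -/
theorem sum_Lab_le {s : ℝ} (hs : 1 < s) : ∃ C : ℝ, 0 < C ∧ ∀ S : Finset (O × O × O),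
    ∑ l ∈ S, nm l.1 ^ (-s) * nm l.2.1 ^ (-s) * nm l.2.2 ^ (-s) ≤ C := by
  classical
  have h0 : ∀ n : O, 0 ≤ nm n ^ (-s) := fun n => Real.rpow_nonneg (nm_nonneg n) _
  have hS := summable_nm_rpow hs
  set D : ℝ := ∑' n : O, nm n ^ (-s) with hD
  have hD0 : 0 ≤ D := tsum_nonneg h0
  have hA : ∀ A : Finset O, ∑ n ∈ A, nm n ^ (-s) ≤ D := fun A => hS.sum_le_tsum A fun n _ => h0 n
  refine ⟨D * (D * D) + 1, by positivity, fun S => ?_⟩
  have hsub : S ⊆ S.image (·.1) ×ˢ S.image (·.2.1) ×ˢ S.image (·.2.2) := fun l hl => by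
    simp only [Finset.mem_product]
    exact ⟨Finset.mem_image_of_mem _ hl, Finset.mem_image_of_mem _ hl,
      Finset.mem_image_of_mem _ hl⟩
  refine (Finset.sum_le_sum_of_subset_of_nonneg hsub fun l _ _ =>
    mul_nonneg (mul_nonneg (h0 _) (h0 _)) (h0 _)).trans ?_
  have e : ∀ A B C : Finset O,
      ∑ l ∈ A ×ˢ B ×ˢ C, nm l.1 ^ (-s) * nm l.2.1 ^ (-s) * nm l.2.2 ^ (-s) =
      (∑ n ∈ A, nm n ^ (-s)) * ((∑ n ∈ B, nm n ^ (-s)) * ∑ n ∈ C, nm n ^ (-s)) := by
    intro A B C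
    rw [Finset.sum_mul_sum B C, ← Finset.sum_product', Finset.sum_mul_sum, ← Finset.sum_product']
    exact Finset.sum_congr rfl fun l _ => mul_assoc _ _ _
  rw [e]
  refine le_trans ?_ (le_add_of_nonneg_right zero_le_one)
  have hA0 : ∀ A : Finset O, 0 ≤ ∑ n ∈ A, nm n ^ (-s) := fun A => Finset.sum_nonneg fun n _ => h0 n
  exact mul_le_mul (hA _) (mul_le_mul (hA _) (hA _) (hA0 _) hD0) (mul_nonneg (hA0 _) (hA0 _)) hD0

end Crest.Agent.R17
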