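import Crest.Agent.R17.P.Glue

/-!
Row 17, block P: the Gram sum, split along the squarefull part.
-/

set_option autoImplicit false

namespace Crest.Agent.R17

open scoped ComplexConjugate

theorem GramAa_prime {p : O} (hp : Prime p) {j : ℕ} (hj : j ≠ 0) {m : O} (hm : ¬ p ∣ m) :
    ‖gs j m p‖ ^ 2 ≤ nm p := by
  by_cases h6 : IsCoprime p 6
  · by_cases hj6 : 6 ∣ j
    · rw [gs_prime_six hp h6 hj hj6, if_neg hm, norm_neg, norm_one, one_pow]
      exact one_le_nm hp.ne_zero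
    · have hs : Squarefree p := hp.squarefree
      rw [gs_sqfree hs hj6, norm_mul, norm_gs hs h6 hj6, mul_pow, Real.sq_sqrt (nm_nonneg p),
        norm_pow, Complex.norm_conj]
      refine mul_le_of_le_one_left (nm_nonneg p) (pow_le_one₀ (by positivity) ?_)
      exact pow_le_one₀ (norm_nonneg _) (norm_sx_le m p)
  · rw [gs_eq_zero_of_not_six hj m h6, norm_zero, zero_pow two_ne_zero]
    exact nm_nonneg p

theorem GramAa_pow {p : O} (hp : Prime p) (k : ℕ) (m : O) : ∃ i ≤ k + 1, p ^ i ∣ m ∧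
    ‖gs 5 m (p ^ (k + 1))‖ ^ 2 ≤ nm (p ^ (k + 1)) * nm (p ^ i) := by
  by_cases h : p ^ k ∣ m
  · obtain ⟨m', rfl⟩ := h
    by_cases h' : p ∣ m'
    · refine ⟨k + 1, le_rfl, by rw [pow_succ]; exact mul_dvd_mul_left _ h', ?_⟩
      rw [← sq]
      exact pow_le_pow_left₀ (norm_nonneg _) (norm_gs_le 5 _ (pow_ne_zero _ hp.ne_zero)) 2
    · refine ⟨k, Nat.le_succ k, dvd_mul_right _ _, ?_⟩
      have h1 := GramAa_prime hp (j := 5 * (k + 1)) (by omega) h'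
      rw [gs_pow_succ 5 k m' hp.ne_zero, norm_mul, norm_pow, Complex.norm_real, Real.norm_eq_abs,
        abs_of_nonneg (nm_nonneg p), mul_pow, nm_pow, nm_pow]
      have h2 : 0 ≤ (nm p ^ k) ^ 2 := sq_nonneg _
      calc _ ≤ (nm p ^ k) ^ 2 * nm p := mul_le_mul_of_nonneg_left h1 h2
        _ = _ := by ring
  · refine ⟨0, Nat.zero_le _, by simp, ?_⟩
    rw [gs_pow_succ_zero 5 k hp.ne_zero h, norm_zero, zero_pow two_ne_zero]
    exact mul_nonneg (nm_nonneg _) (nm_nonneg _)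

/-- `‖g(m u; f)‖ = ‖g(m; f)‖` for `u` prime to `f` (`gs_mul_arg`); sum over the units `u mod f`,
extend to all `u`, open the square, `rsum_eQ`: `N f · #{(y, y') : y unit, f₂ ∣ y - y'} = N f · φ(f) · N f₁`
(`Prim.exists_gcd`, `rsum_tower`, `rsum_ite`).  Alternative: `Prim.induction_coprime` with `gs_mul`,
`gs_pow_succ`, `gs_pow_succ_zero`, `norm_gs_le`. -/
theorem norm_gs_sq_le {f : O} (hf : Prim f) (m : O) : ∃ f₁ f₂, Prim f₁ ∧ Prim f₂ ∧ f = f₁ * f₂ ∧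
    f₁ ∣ m ∧ ‖gs 5 m f‖ ^ 2 ≤ nm f * nm f₁ := by
  refine Prim.induction_coprime (P := fun f => ∃ f₁ f₂, Prim f₁ ∧ Prim f₂ ∧ f = f₁ * f₂ ∧
    f₁ ∣ m ∧ ‖gs 5 m f‖ ^ 2 ≤ nm f * nm f₁) hf ?_ ?_
  · refine ⟨1, 1, prim_one, prim_one, (mul_one _).symm, one_dvd _, ?_⟩
    rw [gs_unit 5 m isUnit_one, nm_one]
    simp
  · rintro p k n hp hp' hn hpn ⟨n₁, n₂, h₁, h₂, rfl, hd, hb⟩
    obtain ⟨i, hi, hid, hib⟩ := GramAa_pow hp k m
    obtain ⟨j, hj⟩ := Nat.exists_eq_add_of_le hi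
    have hc : IsCoprime p (n₁ * n₂) := hp.coprime_iff_not_dvd.2 hpn
    refine ⟨p ^ i * n₁, p ^ j * n₂, (hp'.pow i).mul h₁, (hp'.pow j).mul h₂, by rw [hj]; ring,
      (hc.of_mul_right_left.pow_left).mul_dvd hid hd, ?_⟩
    rw [gs_mul 5 (pow_ne_zero _ hp.ne_zero) hn.ne_zero hc.pow_left, norm_mul, norm_mul, norm_mul,
      norm_pow, norm_pow, mul_pow, mul_pow, nm_mul (p ^ (k + 1)), nm_mul (p ^ i)]
    have h1 : (‖sx (n₁ * n₂) (p ^ (k + 1))‖ ^ 5 * ‖sx (p ^ (k + 1)) (n₁ * n₂)‖ ^ 5) ^ 2 ≤ 1 :=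
      pow_le_one₀ (by positivity) (mul_le_one₀ (pow_le_one₀ (norm_nonneg _) (norm_sx_le _ _))
        (by positivity) (pow_le_one₀ (norm_nonneg _) (norm_sx_le _ _)))
    have h2 := mul_le_mul hib hb (sq_nonneg _) (mul_nonneg (nm_nonneg _) (nm_nonneg _))
    calc _ ≤ 1 * ‖gs 5 m (p ^ (k + 1))‖ ^ 2 * ‖gs 5 m (n₁ * n₂)‖ ^ 2 := by gcongr
      _ ≤ _ := by rw [one_mul]; exact h2.trans (le_of_eq (by ring))

theorem admP_bG {q : O} {ψ : O → ℂ} (hq : Lev q) (hψ : IsTw q ψ) {a Y : ℝ} (ha : 0 < a) (hY : 0 < Y) :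
    AdmP (bG ψ a Y) := by
  classical
  have h := admP_LN (c := fun m => if Squarefree m then ψ m else 0) (M := 1) (θ := 0) ha hY 0
    (fun n _ h0 => by
      by_cases hs : Squarefree n
      · rw [if_pos hs] at h0
        exact ⟨hs, hq.coprime_two (hψ.ne_zero.1 h0)⟩
      · exact absurd (if_neg hs) h0)
    (fun n _ => by
      rw [Real.rpow_zero, mul_one]
      split_ifs
      · exact hψ.norm_le hq.1 n
      · simp)
  convert h using 2 with m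
  simp only [bG, ite_mul, zero_mul]

theorem GramAb_five {s : O} (hs : Squarefree s) (K : O) :
    conj (gs 5 (-K) s) = conj (sx K s) * gs 1 1 s := by
  have e : sx K s = sx (-1) s * sx (-K) s := by rw [← sx_mul_left, neg_one_mul, neg_neg]
  rw [gs_five _ hs.ne_zero, gs_sqfree hs (j := 1) (by norm_num) (-K), e]
  simp only [map_mul, pow_one, Complex.conj_conj]
  ring

open Classical in
theorem GramAb_term {q : O} {ψ : O → ℂ} (hq : Lev q) (hψ : IsTw q ψ) (a R : ℝ) {f₁ f₂ : O}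
    (h₁ : Prim f₁) (h₂ : Prim f₂) (hf : IsCoprime (f₁ * f₂) 2) (k : O) {s : O} (hs : Prim s) :
    conj (if Squarefree s ∧ IsCoprime (f₁ * f₂) s then
      ψ (f₁ * f₂ * s) * LN a R 0 (nm (f₁ * f₂ * s)) / (Real.sqrt (nm (f₁ * f₂ * s)) : ℂ) *
        gs 5 (-(f₁ * k)) (f₁ * f₂ * s) else 0) =
    conj (ψ (f₁ * f₂) * gs 5 (-(f₁ * k)) (f₁ * f₂)) / (Real.sqrt (nm (f₁ * f₂)) : ℂ) *
      (bG (fun n => conj (ψ n) * eps (f₁ * f₂) n) a (R / nm (f₁ * f₂)) s * gt s *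
        sx (f₁ * f₂ ^ 2) s * sj true (sx k s)) := by
  by_cases hsq : Squarefree s
  swap
  · rw [if_neg fun h => hsq h.1, bG, if_neg hsq]
    simp
  by_cases hc : IsCoprime (f₁ * f₂) s
  swap
  · have : sx (f₁ * f₂ ^ 2) s = 0 := sx_eq_zero_of_not_coprime fun h =>
      hc (h.of_isCoprime_of_dvd_left ⟨f₂, by ring⟩)
    rw [if_neg fun h => hc h.2, this]
    simp
  rw [if_pos ⟨hsq, hc⟩, bG, if_pos hsq, hψ.mul]
  by_cases hsq' : IsCoprime s q
  swap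
  · rw [hψ.zero s hsq']
    simp
  have hs2 := hq.coprime_two hsq'
  have h1 : sx f₁ s * conj (sx f₁ s) = 1 := by
    rw [sx_mul_conj, if_pos ⟨hq.coprime_six hsq', hc.of_mul_left_left⟩]
  rw [gs_five_mul (h₁.mul h₂) hs hf hs2 hc, nm_mul (f₁ * f₂) s, LN_mul_arg,
    Real.sqrt_mul (nm_nonneg _), gt, sj_true]
  simp only [map_mul, map_div₀, map_pow, Complex.conj_conj, Complex.conj_ofReal,
    Complex.ofReal_mul, conj_LN, neg_zero, GramAb_five hsq, conj_eps hf hs2, sx_mul_left,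
    sx_pow_left f₂ s two_ne_zero]
  linear_combination (conj (ψ (f₁ * f₂)) * conj (ψ s) *
    LN a (R / nm (f₁ * f₂)) 0 (nm s) / (↑√(nm (f₁ * f₂)) * ↑√(nm s)) * sx f₁ s * sx f₂ s ^ 2 *
    eps (f₁ * f₂) s * conj (gs 5 (-(f₁ * k)) (f₁ * f₂)) * conj (sx k s) * gs 1 1 s) * h1

/-- Conjugate.  If `f = f₁ f₂` is not prime to `q` everything vanishes.  Otherwise
`ψ' = conj ψ · eps f` (`IsTw.mul_eps`), `gs_five_mul`, `gs_five`, `gs_sqfree`:
`conj (gs 5 (-k) s) / √N s = conj (sx k s) gt s`, `sx f s ^ 2 conj (sx f₁ s) = sx (f₁ f₂²) s`,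
`LN_mul_arg`, `conj_LN`. -/
theorem CCf_le {q : O} {ψ : O → ℂ} (hq : Lev q) (hψ : IsTw q ψ) (a R : ℝ) {f₁ f₂ : O} (h₁ : Prim f₁)
    (h₂ : Prim f₂) : ∃ ψ' : O → ℂ, IsTw q ψ' ∧ ∀ k : O,
      ‖CCf ψ a R (f₁ * f₂) (f₁ * k)‖ ^ 2 ≤ ‖gs 5 (-(f₁ * k)) (f₁ * f₂)‖ ^ 2 / nm (f₁ * f₂) *
        ‖Sp true (fun m => bG ψ' a (R / nm (f₁ * f₂)) m * gt m * sx (f₁ * f₂ ^ 2) m) k‖ ^ 2 := by
  by_cases hf : IsCoprime (f₁ * f₂) q
  swap
  · refine ⟨ψ, hψ, fun k => ?_⟩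
    have : CCf ψ a R (f₁ * f₂) (f₁ * k) = 0 := by
      unfold CCf
      simp only [hψ.mul (f₁ * f₂), hψ.zero _ hf, zero_mul, zero_div, ite_self, tsum_zero]
    rw [this, norm_zero, zero_pow two_ne_zero]
    exact mul_nonneg (div_nonneg (sq_nonneg _) (nm_nonneg _)) (sq_nonneg _)
  have hf2 := hq.coprime_two hf
  refine ⟨_, hψ.conj.mul_eps hq.four_dvd hf2, fun k => ?_⟩
  have e : conj (CCf ψ a R (f₁ * f₂) (f₁ * k)) =
      conj (ψ (f₁ * f₂) * gs 5 (-(f₁ * k)) (f₁ * f₂)) / (Real.sqrt (nm (f₁ * f₂)) : ℂ) *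
        Sp true (fun m => bG (fun n => conj (ψ n) * eps (f₁ * f₂) n) a (R / nm (f₁ * f₂)) m *
          gt m * sx (f₁ * f₂ ^ 2) m) k := by
    unfold CCf Sp
    rw [Complex.conj_tsum, ← tsum_mul_left]
    exact tsum_congr fun s => GramAb_term hq hψ a R h₁ h₂ hf2 k s.2
  rw [← Complex.norm_conj, e, norm_mul, norm_div, Complex.norm_conj, norm_mul,
    hψ.norm_eq hq.1 hf, one_mul, mul_pow, div_pow, Complex.norm_real,
    Real.norm_of_nonneg (Real.sqrt_nonneg _), Real.sq_sqrt (nm_nonneg _)]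

theorem GramAa_coef {ψ : O → ℂ} (hψ : ∀ n, ‖ψ n‖ ≤ 1) (k : O) {n : O} (hn : n ≠ 0) {Z : ℝ}
    (hZ : 0 < Z) (h : Z ^ 2 ≤ nm n) :
    ‖ψ n / (Real.sqrt (nm n) : ℂ) * gs 5 (-k) n‖ ≤ (Z ^ 3)⁻¹ * nm n ^ (2 : ℝ) := by
  have hx := nm_pos hn
  have hs : 0 < √(nm n) := Real.sqrt_pos.2 hx
  have h1 : Z ≤ √(nm n) := Real.le_sqrt_of_sq_le h
  have h2 := Real.sq_sqrt hx.le
  rw [norm_mul, norm_div, Complex.norm_real, Real.norm_eq_abs, abs_of_pos hs, Real.rpow_two,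
    ← div_eq_inv_mul, le_div_iff₀ (by positivity)]
  calc ‖ψ n‖ / √(nm n) * ‖gs 5 (-k) n‖ * Z ^ 3 ≤ 1 / √(nm n) * nm n * √(nm n) ^ 3 := by
        gcongr
        · exact hψ n
        · exact norm_gs_le 5 _ hn
    _ = nm n * √(nm n) ^ 2 := by field_simp
    _ = nm n ^ 2 := by rw [h2, sq]

/-- Every primary `n` is `f s` uniquely (`Prim.exists_sqfull`, `sqfull_unique`, `tsum_Pr_dvd`); the
remaining `n` have `N n > Z²`, so `‖term‖ ≤ Z⁻³ N n ^ 2 ‖LN‖` (`norm_gs_le`), `sum_LN_O` with `θ = 2`. -/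
theorem CC_split {a : ℝ} (ha : 0 < a) : ∃ C : ℝ, 0 < C ∧ ∀ (ψ : O → ℂ) (R Z : ℝ) (k : O),
    (∀ n, ‖ψ n‖ ≤ 1) → 1 ≤ R → R ≤ Z → ‖CC ψ a R k - ∑ f ∈ SF (Z ^ 2), CCf ψ a R f k‖ ≤ C := by
  classical
  obtain ⟨C, hC, hS⟩ := sum_LN_O ha 2
  refine ⟨C, hC, fun ψ R Z k hψ hR hRZ => ?_⟩
  have hR0 : 0 < R := by linarith
  have hZ0 : 0 < Z := by linarith
  set c : O → ℂ := fun n => ψ n / (Real.sqrt (nm n) : ℂ) * gs 5 (-k) n with hc
  set Q : O → Prop := fun n => ∃ f ∈ SF (Z ^ 2), ∃ s, Prim s ∧ Squarefree s ∧ IsCoprime f s ∧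
    n = f * s with hQ
  have hinj : Function.Injective fun n : Pr => (n : O) := Subtype.val_injective
  have hne : ∀ n : Pr, (n : O) ≠ 0 := fun n => (Pr_prim n).ne_zero
  have hc1 : ∀ n : Pr, ‖c n‖ ≤ 1 * nm n ^ (2 : ℝ) := fun n => by
    have h := GramAa_coef hψ k (hne n) one_pos (by simpa using one_le_nm (hne n))
    rwa [one_pow, inv_one] at h
  have s1 := (hS (fun n : Pr => (n : O)) (fun n => if Q n then c n else 0) 1 R 0 hinj
    (fun n h => absurd h (hne n)) (fun n _ => by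
      split_ifs
      · exact hc1 n
      · rw [norm_zero]
        exact (norm_nonneg _).trans (hc1 n)) zero_le_one hR0).1
  obtain ⟨s2, b2⟩ := hS (fun n : Pr => (n : O)) (fun n => if Q n then 0 else c n) (Z ^ 3)⁻¹ R 0 hinj
    (fun n h => absurd h (hne n)) (fun n _ => by
      split_ifs with h
      · rw [norm_zero]
        exact mul_nonneg (by positivity) (Real.rpow_nonneg (nm_nonneg _) _)
      · obtain ⟨f, s, h1, h2, h3, h4, h5, h6⟩ := (Pr_prim n).exists_sqfull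
        refine GramAa_coef hψ k (hne n) hZ0 ?_
        by_contra h7
        refine h ⟨f, mem_SF.2 ⟨?_, h1, h3⟩, s, h2, h4, h5, h6⟩
        exact (nm_le_of_dvd ⟨s, h6⟩ (hne n)).trans (not_le.1 h7).le) (by positivity) hR0
  have e1 : CC ψ a R k = ∑' n : Pr, (if Q n then c n else 0) * LN a R 0 (nm n) +
      ∑' n : Pr, (if Q n then 0 else c n) * LN a R 0 (nm n) := by
    rw [← s1.of_norm.tsum_add s2.of_norm, CC]
    refine tsum_congr fun n => ?_
    split_ifs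
    · simp only [hc]; ring
    · simp only [hc]; ring
  have e2 : ∑' n : Pr, (if Q n then c n else 0) * LN a R 0 (nm n) =
      ∑ f ∈ SF (Z ^ 2), CCf ψ a R f k := by
    rw [tsum_sqfull (F := fun n => (if Q n then c n else 0) * LN a R 0 (nm n)) s1.of_norm]
    have e3 : ∀ f : Pr, (if Sqfull f then ∑' s : Pr,
        (if Squarefree (s : O) ∧ IsCoprime (f : O) s then
          (if Q (f * s) then c (f * s) else 0) * LN a R 0 (nm (f * s)) else 0) else 0) =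
        if (f : O) ∈ SF (Z ^ 2) then CCf ψ a R f k else 0 := by
      intro f
      by_cases hf : (f : O) ∈ SF (Z ^ 2)
      · rw [if_pos hf, if_pos (mem_SF.1 hf).2.2, CCf]
        refine tsum_congr fun s => ?_
        by_cases hs : Squarefree (s : O) ∧ IsCoprime (f : O) s
        · rw [if_pos hs, if_pos hs, if_pos ⟨f, hf, s, Pr_prim s, hs.1, hs.2, rfl⟩]
          simp only [hc]; ring
        · rw [if_neg hs, if_neg hs]
      · rw [if_neg hf]
        split_ifs with h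
        · refine (tsum_congr fun s => ?_).trans tsum_zero
          by_cases hs : Squarefree (s : O) ∧ IsCoprime (f : O) s
          · rw [if_pos hs, if_neg, zero_mul]
            rintro ⟨f', hf', s', -, h2, h3, h4⟩
            obtain ⟨-, h5, h6⟩ := mem_SF.1 hf'
            rw [← (sqfull_unique (Pr_prim f) h5 (Pr_prim s) h h6 hs.1 h2 hs.2 h3 h4).1] at hf'
            exact hf hf'
          · rw [if_neg hs]
        · rfl
    rw [tsum_congr e3, tsum_Pr_eq fun f => if f ∈ SF (Z ^ 2) then CCf ψ a R f k else 0,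
      tsum_eq_sum (s := SF (Z ^ 2)) fun f hf => by simp only [if_neg hf, ite_self]]
    refine Finset.sum_congr rfl fun f hf => ?_
    rw [if_pos (mem_SF.1 hf).2.1, if_pos hf]
  rw [e1, e2, add_sub_cancel_left]
  refine (norm_tsum_le_tsum_norm s2).trans (b2.trans ?_)
  have e4 : R ^ ((2 : ℝ) + 1) = R ^ 3 := by
    rw [show (2 : ℝ) + 1 = (3 : ℕ) by norm_num, Real.rpow_natCast]
  rw [e4, mul_assoc]
  refine mul_le_of_le_one_right hC.le ?_
  rw [← div_eq_inv_mul, div_le_one (by positivity)]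
  exact pow_le_pow_left₀ hR0.le hRZ 3

end Crest.Agent.R17
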