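import Crest.Agent.R17.P.GramA
import Crest.Agent.R17.C.Smooth

/-!
Row 17, block P: pointwise bounds for the children of the Gram sum.
-/

set_option autoImplicit false

namespace Crest.Agent.R17

open scoped ComplexConjugate

open Complex (I)

theorem GramBa_fin {E : Type} [AddCommMonoid E] [TopologicalSpace E] {m : O} (hm : Prim m)
    (g : O → E) (h : ∀ d, ¬ d ∣ m → g d = 0) :
    HasSum (fun δ : Pr => g δ) (∑ d ∈ pdiv m, g d) := by
  classical
  rw [← Finset.sum_subtype_of_mem (p := (· ∈ Pr)) g fun d hd => ((mem_pdiv hm.ne_zero).1 hd).1]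
  exact hasSum_sum_of_ne_finset_zero fun δ hδ => h _ fun hd =>
    hδ (Finset.mem_subtype.2 ((mem_pdiv hm.ne_zero).2 ⟨δ.2, hd⟩))

open Classical in
/-- squarefree sieve: `sum_mu_sq`, interchange on `Pr × Pr` (the number of `δ` with `δ² ∣ m` is at most
`11 N m`), `tsum_Pr_dvd` -/
theorem hasSum_sqfree {G : O → ℂ} (hG : Summable fun m : Pr => ‖G m‖ * nm m) :
    HasSum (fun δ : Pr => mu δ * ∑' n : Pr, G (δ ^ 2 * n))
      (∑' m : Pr, if Squarefree (m : O) then G m else 0) := by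
  have h0 : ∀ (m : O) (d : O), ¬ d ∣ m → ¬ d ^ 2 ∣ m := fun m d h h' =>
    h ((dvd_pow_self d two_ne_zero).trans h')
  have hn : ∀ m : Pr, HasSum (fun δ : Pr => ‖if (δ : O) ^ 2 ∣ m then mu δ * G m else 0‖)
      (∑ d ∈ pdiv m, ‖if d ^ 2 ∣ m then mu d * G m else 0‖) := fun m =>
    GramBa_fin m.2 _ fun d h => by rw [if_neg (h0 _ _ h), norm_zero]
  have hF : Summable fun p : Pr × Pr => if (p.2 : O) ^ 2 ∣ p.1 then mu p.2 * G p.1 else 0 := by
    refine Summable.of_norm ((summable_prod_of_nonneg fun _ => norm_nonneg _).2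
      ⟨fun m => (hn m).summable, (hG.mul_left 11).of_nonneg_of_le
        (fun m => tsum_nonneg fun _ => norm_nonneg _) fun m => ?_⟩)
    rw [(hn m).tsum_eq]
    refine (Finset.sum_le_card_nsmul _ _ ‖G m‖ fun d _ => ?_).trans ?_
    · split_ifs
      · rw [norm_mul]
        exact mul_le_of_le_one_left (norm_nonneg _) (norm_mu_le d)
      · rw [norm_zero]
        exact norm_nonneg _
    · have := card_le_of_nm_le (nm_nonneg m) (A := pdiv m) fun d hd =>
        have h1 := (mem_pdiv (Pr_prim m).ne_zero).1 hd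
        ⟨h1.1.ne_zero, nm_le_of_dvd h1.2 (Pr_prim m).ne_zero⟩
      rw [nsmul_eq_mul]
      nlinarith [norm_nonneg (G m)]
  have h1 := hF.hasSum.prod_fiberwise (g := fun m : Pr => if Squarefree (m : O) then G m else 0)
    fun m => by
      convert GramBa_fin m.2 (fun d => if d ^ 2 ∣ m then mu d * G m else 0)
        fun d h => if_neg (h0 _ _ h) using 1
      have := congrArg (· * G m) (sum_mu_sq (Pr_prim m))
      simp only [Finset.sum_mul, ite_mul, zero_mul, one_mul] at this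
      exact this.symm
  rw [h1.tsum_eq]
  refine ((Equiv.prodComm Pr Pr).hasSum_iff.2 hF.hasSum).prod_fiberwise fun δ => ?_
  rw [← tsum_mul_left, ← tsum_Pr_dvd ((Pr_prim δ).pow 2) fun m => mu δ * G m]
  exact (hF.prod_symm.prod_factor δ).hasSum

open Classical in
/-- mask: `sum_mu_coprime`, `tsum_Pr_dvd` -/
theorem tsum_coprime {G : O → ℂ} (hG : Summable fun m : Pr => G m) {d : O} (hd : Prim d) :
    (∑' m : Pr, if IsCoprime d m then G m else 0) = ∑ c ∈ pdiv d, mu c * ∑' n : Pr, G (c * n) := by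
  have e : ∀ m : Pr, (if IsCoprime d m then G m else 0) =
      ∑ c ∈ pdiv d, if c ∣ (m : O) then mu c * G m else 0 := fun m => by
    have := congrArg (· * G m) (sum_mu_coprime hd m)
    simp only [Finset.sum_mul, ite_mul, zero_mul, one_mul] at this
    exact this.symm
  rw [tsum_congr e, Summable.tsum_finsetSum fun c _ => ?_]
  · refine Finset.sum_congr rfl fun c hc => ?_
    rw [tsum_Pr_dvd ((mem_pdiv hd.ne_zero).1 hc).1 fun m => mu c * G m, tsum_mul_left]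
  · refine (hG.mul_left (mu c)).norm.of_norm_bounded fun m => ?_
    split_ifs
    · exact le_rfl
    · rw [norm_zero]
      exact norm_nonneg _

theorem GramBa_interp {θ x B u : ℝ} (hθ : 0 < θ) (hθ' : θ ≤ 1 / 2) (hx : 0 ≤ x) (hB : 1 ≤ B)
    (h1 : x ≤ B) (h2 : x ≤ u) : x ≤ Real.sqrt B * u ^ (1 / 2 + θ) := by
  have e : x = x ^ (1 / 2 - θ) * x ^ (1 / 2 + θ) := by
    rw [← Real.rpow_add' hx (by norm_num)]
    norm_num
  rw [e, Real.sqrt_eq_rpow]
  exact mul_le_mul ((Real.rpow_le_rpow hx h1 (by linarith)).trans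
    (Real.rpow_le_rpow_of_exponent_le hB (by linarith))) (Real.rpow_le_rpow hx h2 (by linarith))
    (by positivity) (by positivity)

open Classical in
/-- squarefree sums with a mask.  `hasSum_sqfree`, `tsum_coprime`; the inner sum is
`χ(δ² c) PS χ a (Y / N(δ² c)) t` (`LN_mul_arg`), bounded by `B` and by `C Y / N δ²`
(`C.norm_sum_le`), hence by `B^(1/2) (C Y / N δ²)^(1/2+θ)` (as `1 ≤ B`); `card_pdiv_le`. -/
theorem sqfree_sum_le {a θ : ℝ} (ha : 0 < a) (hθ : 0 < θ) (hθ' : θ ≤ 1 / 2) : ∃ C : ℝ, 0 < C ∧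
    ∀ (χ : O → ℂ) (d : O) (Y t B : ℝ), (∀ m n, χ (m * n) = χ m * χ n) → (∀ n, ‖χ n‖ ≤ 1) → Prim d →
      0 < Y → 1 ≤ B → (∀ Y', 0 < Y' → ‖PS χ a Y' t‖ ≤ B) →
      ‖∑' m : Pr, if Squarefree (m : O) ∧ IsCoprime d m then χ m * LN a Y t (nm m) else 0‖ ≤
        C * nm d ^ θ * Real.sqrt B * Y ^ (1 / 2 + θ) := by
  obtain ⟨C₀, hC₀, h₀⟩ := C.norm_sum_le a 1 ha le_rfl
  obtain ⟨C₁, hC₁, h₁⟩ := card_pdiv_le hθ
  obtain ⟨C₂, -, h₂⟩ := sum_LN_O ha 1
  have hZ := Summable.Pr (summable_nm_rpow (σ := 2 * (1 / 2 + θ)) (by linarith))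
  have hZ0 : 0 ≤ ∑' n : Pr, nm n ^ (-(2 * (1 / 2 + θ))) :=
    tsum_nonneg fun n => Real.rpow_nonneg (nm_nonneg _) _
  refine ⟨C₁ * C₀ ^ (1 / 2 + θ) * (∑' n : Pr, nm n ^ (-(2 * (1 / 2 + θ))) + 1), by positivity,
    fun χ d Y t B hχ hχ1 hd hY hB hPS => ?_⟩
  have hs : ∀ Y' : ℝ, 0 < Y' → Summable fun m : Pr => ‖χ m * LN a Y' t (nm m)‖ * nm m :=
    fun Y' hY' => by
      refine (h₂ (fun m : Pr => (m : O)) (fun m => χ m * nm m) 1 Y' t Subtype.val_injective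
        (fun m h => absurd h (Pr_prim m).ne_zero) (fun m _ => ?_) zero_le_one hY').1.congr
        fun m => ?_
      · rw [norm_mul, Complex.norm_of_nonneg (nm_nonneg _), Real.rpow_one]
        exact mul_le_mul_of_nonneg_right (hχ1 m) (nm_nonneg _)
      · rw [mul_right_comm, norm_mul, Complex.norm_of_nonneg (nm_nonneg _)]
  have H := hasSum_sqfree (G := fun m => if IsCoprime d m then χ m * LN a Y t (nm m) else 0)
    ((hs Y hY).of_nonneg_of_le (fun m => mul_nonneg (norm_nonneg _) (nm_nonneg _)) fun m => by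
      refine mul_le_mul_of_nonneg_right ?_ (nm_nonneg _)
      split_ifs
      · exact le_rfl
      · rw [norm_zero]
        exact norm_nonneg _)
  simp only [← ite_and] at H
  have hd0 := nm_nonneg d
  refine (H.norm_le_of_bounded (hZ.hasSum.mul_left
    (C₁ * nm d ^ θ * (Real.sqrt B * (C₀ * Y) ^ (1 / 2 + θ)))) fun δ => ?_).trans ?_
  · have hδ := one_le_nm (Pr_prim δ).ne_zero
    rw [norm_mul]
    refine (mul_le_of_le_one_left (norm_nonneg _) (norm_mu_le _)).trans ?_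
    by_cases hc : IsCoprime d (δ ^ 2)
    · have hY' : 0 < Y / nm ((δ : O) ^ 2) := div_pos hY (nm_pos ((Pr_prim δ).pow 2).ne_zero)
      simp only [IsCoprime.mul_right_iff, hc, true_and, hχ, nm_mul, LN_mul_arg, mul_assoc]
      have hs' : Summable fun m : Pr => χ m * LN a (Y / nm ((δ : O) ^ 2)) t (nm m) :=
        (hs _ hY').of_norm_bounded fun m => le_mul_of_one_le_right (norm_nonneg _)
          (one_le_nm (Pr_prim m).ne_zero)
      rw [tsum_coprime (G := fun m => χ (δ ^ 2) * (χ m * LN a (Y / nm ((δ : O) ^ 2)) t (nm m)))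
        (hs'.mul_left (χ (δ ^ 2))) hd, ← mul_assoc]
      refine (norm_sum_le _ _).trans ((Finset.sum_le_card_nsmul _ _ _ fun c hc' => ?_).trans
        (by rw [nsmul_eq_mul]
            exact mul_le_mul_of_nonneg_right (h₁ d hd.ne_zero) (by positivity)))
      have h1 := one_le_nm ((mem_pdiv hd.ne_zero).1 hc').1.ne_zero
      have hY'' : 0 < Y / nm ((δ : O) ^ 2) / nm c := by positivity
      simp only [hχ, nm_mul, LN_mul_arg, mul_assoc, tsum_mul_left, norm_mul]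
      refine (mul_le_of_le_one_left (by positivity) (norm_mu_le _)).trans
        ((mul_le_of_le_one_left (by positivity) (hχ1 _)).trans
        ((mul_le_of_le_one_left (by positivity) (hχ1 _)).trans ?_))
      refine (GramBa_interp hθ hθ' (norm_nonneg _) hB (hPS _ hY'')
        (u := C₀ * Y * nm δ ^ (-2 : ℝ)) ((h₀ χ _ t (fun n => hχ1 n) hY'').trans ?_)).trans
        (le_of_eq ?_)
      · rw [Real.rpow_one, mul_assoc, Real.rpow_neg (nm_nonneg _), ← div_eq_mul_inv, nm_pow,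
          Real.rpow_two]
        exact mul_le_mul_of_nonneg_left (div_le_self (by positivity) h1) hC₀.le
      · rw [Real.mul_rpow (by positivity) (by positivity), ← Real.rpow_mul (nm_nonneg _), neg_mul]
    · simp only [IsCoprime.mul_right_iff, hc, false_and, if_false, tsum_zero, norm_zero]
      positivity
  · rw [Real.mul_rpow hC₀.le hY.le]
    have : 0 ≤ C₁ * nm d ^ θ * (Real.sqrt B * (C₀ ^ (1 / 2 + θ) * Y ^ (1 / 2 + θ))) := by
      positivity
    nlinarith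

/-- trivial bound: `LN_mul_arg`, `sum_LN_O` with `θ = σ - 1/2` -/
theorem child_triv {a : ℝ} (ha : 0 < a) (σ : ℝ) : ∃ C : ℝ, 0 < C ∧
    ∀ (ψ ρ : O → ℂ) (Y τ : ℝ) (l : O × O × O) (u : O), (∀ n, ‖ψ n‖ ≤ 1) → (∀ n, ‖ρ n‖ ≤ 1) → 0 < Y →
      l.1 * l.2.1 * l.2.2 ≠ 0 →
      ‖Sp false (child (bG ψ a Y) ρ (σ + τ * I) l) u‖ ^ 2 ≤
        C * (Y / nm (l.1 * l.2.1 * l.2.2)) ^ (1 + 2 * σ) := by
  classical
  obtain ⟨C, hC, h⟩ := sum_LN_O ha (σ - 1 / 2)
  refine ⟨C ^ 2, by positivity, fun ψ ρ Y τ l u hψ hρ hY hd => ?_⟩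
  set d := l.1 * l.2.1 * l.2.2 with hdd
  have hY' : 0 < Y / nm d := div_pos hY (nm_pos hd)
  obtain ⟨h1, h2⟩ := h (ι := Pr) Subtype.val (fun m => (if Squarefree (d * m) then ψ (d * m) else 0) *
      ρ m * (nm m : ℂ) ^ ((σ : ℂ) + τ * I - 1 / 2) * sx u m) 1 (Y / nm d) 0 Subtype.val_injective
    (fun n hn => absurd hn (Pr_prim n).ne_zero) (fun n hn => by
      have e : ((σ : ℂ) + τ * I - 1 / 2).re = σ - 1 / 2 := by simp
      rw [norm_mul, norm_mul, norm_mul, Complex.norm_cpow_eq_rpow_re_of_pos (nm_pos hn), e]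
      have a1 : ‖if Squarefree (d * n) then ψ (d * n) else 0‖ ≤ 1 := by
        split_ifs
        · exact hψ _
        · simp
      have a2 := hρ n
      have a3 := norm_sx_le u n
      have a4 : 0 ≤ nm (n : O) ^ (σ - 1 / 2) := Real.rpow_nonneg (nm_nonneg _) _
      calc _ ≤ 1 * 1 * nm (n : O) ^ (σ - 1 / 2) * 1 := by gcongr
        _ = _ := by ring) zero_le_one hY'
  have e : Sp false (child (bG ψ a Y) ρ (σ + τ * I) l) u = ∑' m : Pr,
      (if Squarefree (d * m) then ψ (d * m) else 0) *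
        ρ m * (nm m : ℂ) ^ ((σ : ℂ) + τ * I - 1 / 2) * sx u m * LN a (Y / nm d) 0 (nm m) := by
    refine tsum_congr fun m => ?_
    simp only [child, bG, sj_false, ← hdd, nm_mul d, LN_mul_arg]
    split_ifs
    · ring
    · ring
  have h3 := (norm_tsum_le_tsum_norm h1).trans h2
  rw [e]
  refine (pow_le_pow_left₀ (norm_nonneg _) h3 2).trans (le_of_eq ?_)
  rw [mul_one, mul_pow, ← Real.rpow_natCast (_ ^ _), ← Real.rpow_mul hY'.le]
  congr 2
  push_cast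
  ring

/-- non-exceptional rows: `LN_mul_arg`, `LN_mul_cpow` (new centre `Y' e^{a²(σ-1/2)}`, twist `τ`),
`squarefree_mul_iff`, `sqfree_sum_le` for `χ = rc (ψ ρ) u` (`IsTw.mul_dvd`), `C.PS_pv` -/
theorem child_pv {q : O} (hq : Lev q) {a ε : ℝ} (ha : 0 < a) (hε : 0 < ε) {σ : ℝ} (hσ : 0 < σ) :
    ∃ C : ℝ, 0 < C ∧ ∀ (ψ ρ : O → ℂ) (Z Y τ : ℝ) (l : O × O × O) (u r : O), IsTw q ψ → IsTw 4 ρ →
      1 ≤ Z → 0 < Y → Y ≤ Z → l ∈ Lab Z → u ≠ 0 → ¬ Exc q u → R17.C.Rad u r → nm r ≤ Z →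
      ‖Sp false (child (bG ψ a Y) ρ (σ + τ * I) l) u‖ ^ 2 ≤
        C * Z ^ (2 * σ + ε) * (1 + |τ|) ^ C * Real.sqrt (nm r) := by
  classical
  obtain ⟨θ, hθ, hθ', hθε⟩ : ∃ θ : ℝ, 0 < θ ∧ θ ≤ 1 / 2 ∧ 5 * θ ≤ ε :=
    ⟨min (ε / 5) (1 / 2), lt_min (by positivity) (by norm_num), min_le_right _ _,
      by linarith [min_le_left (ε / 5) (1 / 2)]⟩
  obtain ⟨C₁, hC₁, h₁⟩ := R17.C.PS_pv q a θ hq ha hθ
  obtain ⟨C₂, hC₂, h₂⟩ := sqfree_sum_le ha hθ hθ'
  set E₁ := Real.exp (a ^ 2 * (σ - 1 / 2) ^ 2 / 2) with hE₁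
  set E₂ := Real.exp (a ^ 2 * (σ - 1 / 2)) with hE₂
  have hE₁0 : 0 < E₁ := Real.exp_pos _
  have hE₂0 : 0 < E₂ := Real.exp_pos _
  set K := E₁ ^ 2 * C₂ ^ 2 * (E₂ ^ (1 / 2 + θ)) ^ 2 * (C₁ + 1) with hK
  have hK0 : 0 < K := by positivity
  refine ⟨K + C₁, by positivity, fun ψ ρ Z Y τ l u r hψ hρ hZ hY hYZ hl hu hex hr hrZ => ?_⟩
  obtain ⟨-, -, -, hd, hsq, -, hdZ⟩ := mem_Lab'.1 hl
  set d := l.1 * l.2.1 * l.2.2 with hdd
  have hd1 := one_le_nm hd.ne_zero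
  have hr1 := one_le_nm hr.1
  set Y' := Y / nm d with hY'd
  have hY' : 0 < Y' := div_pos hY (by linarith)
  have hY'Z : Y' ≤ Z := (div_le_self hY.le hd1).trans hYZ
  have hχ := hψ.mul_dvd hρ hq.four_dvd
  set s : ℂ := (σ : ℂ) + τ * I - 1 / 2 with hs
  have hre : s.re = σ - 1 / 2 := by simp [hs]
  have him : s.im = τ := by simp [hs]
  have hτ : 1 ≤ 1 + |τ| := by linarith [abs_nonneg τ]
  set B := (C₁ + 1) * (1 + |τ|) ^ C₁ * nm r ^ (1 / 2 + θ) with hB
  have b1 : 1 ≤ (1 + |τ|) ^ C₁ := Real.one_le_rpow hτ hC₁.le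
  have b2 : 1 ≤ nm r ^ (1 / 2 + θ) := Real.one_le_rpow hr1 (by positivity)
  have hB1 : 1 ≤ B := one_le_mul_of_one_le_of_one_le
    (one_le_mul_of_one_le_of_one_le (by linarith) b1) b2
  have h3 := h₂ (rc (fun n => ψ n * ρ n) u) d (Y' * E₂) τ B
    (fun m n => by simp only [rc, hψ.mul, hρ.mul, sx_mul_right]; ring)
    (R17.C.norm_rc_le hq hχ hu) hd (by positivity) hB1 (fun Y'' hY'' =>
      (h₁ _ u r Y'' τ hχ hu hex hr hY'').trans (by rw [hB]; gcongr; linarith))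
  set κ : ℂ := ψ d * ((Y' : ℂ) ^ s * Complex.exp (((a ^ 2 * s.re ^ 2 / 2 : ℝ) : ℂ) +
    I * ((a ^ 2 * s.re * (0 + s.im) : ℝ) : ℂ))) with hκ
  have hκn : ‖κ‖ ≤ Y' ^ (σ - 1 / 2) * E₁ := by
    rw [hκ, norm_mul, norm_mul, Complex.norm_cpow_eq_rpow_re_of_pos hY', Complex.norm_exp, hre]
    simp only [Complex.add_re, Complex.ofReal_re, Complex.mul_re, Complex.I_re, Complex.I_im,
      Complex.ofReal_im, zero_mul, mul_zero, sub_zero, add_zero]
    exact mul_le_of_le_one_left (by positivity) (hψ.norm_le hq.1 d)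
  have e : Sp false (child (bG ψ a Y) ρ (σ + τ * I) l) u = κ * ∑' m : Pr,
      if Squarefree (m : O) ∧ IsCoprime d m then
        rc (fun n => ψ n * ρ n) u m * LN a (Y' * E₂) τ (nm m) else 0 := by
    rw [← tsum_mul_left]
    refine tsum_congr fun m => ?_
    have hm := LN_mul_cpow ha hY' (nm_pos (Pr_prim m).ne_zero) 0 s
    have hiff : Squarefree (d * m) ↔ Squarefree (m : O) ∧ IsCoprime d m := by
      rw [squarefree_mul_iff, isRelPrime_iff_isCoprime]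
      tauto
    simp only [child, bG, sj_false, ← hdd, nm_mul d, LN_mul_arg, hiff, ← hs, ← hY'd]
    split_ifs
    · have e2 : LN a (Y' * E₂) τ (nm m) =
          LN a (Y' * Real.exp (a ^ 2 * s.re)) (0 + s.im) (nm m) := by
        rw [hre, him, zero_add]
      rw [e2, hψ.mul, hκ, rc]
      linear_combination ψ d * ψ m * ρ m * sx u m * hm
    · ring
  rw [e, norm_mul]
  refine (pow_le_pow_left₀ (by positivity) (mul_le_mul hκn h3 (norm_nonneg _) (by positivity)) 2).trans ?_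
  have hZ0 : 0 < Z := by linarith
  have c1 : (Y' ^ (σ - 1 / 2) * Y' ^ (1 / 2 + θ)) ^ 2 ≤ Z ^ (2 * σ + 2 * θ) := by
    rw [← Real.rpow_add hY', ← Real.rpow_natCast, ← Real.rpow_mul hY'.le,
      show (σ - 1 / 2 + (1 / 2 + θ)) * ((2 : ℕ) : ℝ) = 2 * σ + 2 * θ by push_cast; ring]
    exact Real.rpow_le_rpow hY'.le hY'Z (by positivity)
  have c2 : (nm d ^ θ) ^ 2 ≤ Z ^ (2 * θ) := by
    rw [← Real.rpow_natCast, ← Real.rpow_mul (nm_nonneg d),
      show θ * ((2 : ℕ) : ℝ) = 2 * θ by push_cast; ring]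
    exact Real.rpow_le_rpow (nm_nonneg d) hdZ (by positivity)
  have c3 : nm r ^ (1 / 2 + θ) ≤ Real.sqrt (nm r) * Z ^ θ := by
    rw [Real.rpow_add (by linarith), Real.sqrt_eq_rpow]
    exact mul_le_mul_of_nonneg_left (Real.rpow_le_rpow (nm_nonneg r) hrZ hθ.le) (by positivity)
  have c4 : Z ^ (2 * σ + 2 * θ) * Z ^ (2 * θ) * Z ^ θ ≤ Z ^ (2 * σ + ε) := by
    rw [← Real.rpow_add hZ0, ← Real.rpow_add hZ0]
    exact Real.rpow_le_rpow_of_exponent_le hZ (by linarith)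
  have c5 : (1 + |τ|) ^ C₁ ≤ (1 + |τ|) ^ (K + C₁) :=
    Real.rpow_le_rpow_of_exponent_le hτ (by linarith)
  calc _ = K * ((Y' ^ (σ - 1 / 2) * Y' ^ (1 / 2 + θ)) ^ 2 * (nm d ^ θ) ^ 2 * nm r ^ (1 / 2 + θ)) *
        (1 + |τ|) ^ C₁ := by
        rw [Real.mul_rpow hY'.le hE₂0.le]
        have : Real.sqrt B ^ 2 = B := Real.sq_sqrt (by linarith)
        simp only [mul_pow, this]
        rw [hK, hB]
        ring
    _ ≤ K * (Z ^ (2 * σ + 2 * θ) * Z ^ (2 * θ) * (Real.sqrt (nm r) * Z ^ θ)) * (1 + |τ|) ^ C₁ := by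
        gcongr
    _ = K * (Z ^ (2 * σ + 2 * θ) * Z ^ (2 * θ) * Z ^ θ) * (1 + |τ|) ^ C₁ * Real.sqrt (nm r) := by ring
    _ ≤ _ := by
        gcongr
        linarith

end Crest.Agent.R17
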