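import Crest.Agent.R17.P.GramB
import Crest.Agent.R17.P.LemP

/-!
Row 17, block P: the energy of one squarefull class.
-/

set_option autoImplicit false

namespace Crest.Agent.R17

open scoped ComplexConjugate

open Complex (I)

open Classical in
theorem GramCa_bG (ψ : O → ℂ) (a Y : ℝ) (m : O) :
    bG ψ a Y m = (if Squarefree m then ψ m else 0) * LN a Y 0 (nm m) := by
  unfold bG
  split_ifs <;> simp

open Classical in
theorem GramCa_c {ψ : O → ℂ} (hψ : ∀ n, ‖ψ n‖ ≤ 1) (m : O) :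
    ‖(if Squarefree m then ψ m else 0)‖ ≤ 1 := by
  split_ifs
  · exact hψ m
  · simp

theorem GramCa_sum {a : ℝ} (ha : 0 < a) (A : ℕ) : ∃ C : ℝ, 0 < C ∧ ∀ (ψ : O → ℂ) (Y : ℝ),
    (∀ n, ‖ψ n‖ ≤ 1) → 0 < Y → Summable (fun n : Pr => ‖bG ψ a Y n‖ * (nm n / Y) ^ A) ∧
      ∑' n : Pr, ‖bG ψ a Y n‖ * (nm n / Y) ^ A ≤ C * Y := by
  classical
  obtain ⟨C, hC, h⟩ := sum_LN_O ha (A : ℝ)
  refine ⟨C, hC, fun ψ Y hψ hY => ?_⟩
  have h1 := h (fun n : Pr => (n : O))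
    (fun n : Pr => (if Squarefree (n : O) then ψ n else 0) * (((nm n / Y) ^ A : ℝ) : ℂ))
    (Y ^ A)⁻¹ Y 0 Subtype.val_injective (fun n hn => absurd hn (Pr_prim n).ne_zero)
    (fun n _ => by
      have := nm_nonneg (n : O)
      rw [norm_mul, Complex.norm_real, Real.norm_of_nonneg (by positivity), Real.rpow_natCast,
        div_pow, div_eq_inv_mul]
      exact mul_le_of_le_one_left (by positivity) (GramCa_c hψ n))
    (by positivity) hY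
  have e : ∀ n : Pr, ‖(if Squarefree (n : O) then ψ n else 0) * (((nm n / Y) ^ A : ℝ) : ℂ) *
      LN a Y 0 (nm n)‖ = ‖bG ψ a Y n‖ * (nm n / Y) ^ A := by
    intro n
    have := nm_nonneg (n : O)
    rw [GramCa_bG, norm_mul, norm_mul, norm_mul, Complex.norm_real,
      Real.norm_of_nonneg (by positivity)]
    ring
  simp only [e] at h1
  refine ⟨h1.1, h1.2.trans (le_of_eq ?_)⟩
  rw [Real.rpow_add_one hY.ne', Real.rpow_natCast]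
  field_simp



theorem l2_bG_le {a : ℝ} (ha : 0 < a) : ∃ C : ℝ, 0 < C ∧ ∀ (ψ : O → ℂ) (Y : ℝ), (∀ n, ‖ψ n‖ ≤ 1) →
    0 < Y → l2 (bG ψ a Y) ≤ C * Y := by
  obtain ⟨C, hC, h⟩ := GramCa_sum ha 0
  refine ⟨C, hC, fun ψ Y hψ hY => ?_⟩
  obtain ⟨h1, h2⟩ := h ψ Y hψ hY
  simp only [pow_zero, mul_one] at h1 h2
  have h3 : ∀ n : Pr, ‖bG ψ a Y n‖ ^ 2 ≤ ‖bG ψ a Y n‖ := by
    intro n
    refine pow_le_of_le_one (norm_nonneg _) ?_ two_ne_zero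
    rw [GramCa_bG, norm_mul]
    exact mul_le_one₀ (GramCa_c hψ n) (norm_nonneg _) (norm_LN_le_one _ _ _ _)
  exact (Summable.tsum_le_tsum h3 (Summable.of_nonneg_of_le (fun _ => by positivity) h3 h1)
    h1).trans h2

/-- `sum_LN_O` with `θ = A` -/
theorem tail_bG_le {a : ℝ} (ha : 0 < a) (A : ℕ) : ∃ C : ℝ, 0 < C ∧ ∀ (ψ : O → ℂ) (Y T Z : ℝ),
    (∀ n, ‖ψ n‖ ≤ 1) → 0 < Y → Y ≤ Z → 1 ≤ Z → 0 < T → tail A (bG ψ a Y) Y T ≤ C * (T / T ^ A * Z ^ 5) := by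
  obtain ⟨C, hC, h⟩ := GramCa_sum ha A
  refine ⟨8 * C ^ 2, by positivity, fun ψ Y T Z hψ hY hYZ hZ hT => ?_⟩
  have h2 := (h ψ Y hψ hY).2
  have h0 : 0 ≤ ∑' n : Pr, ‖bG ψ a Y n‖ * (nm n / Y) ^ A := tsum_nonneg fun n => by
    have := nm_nonneg (n : O)
    positivity
  unfold tail
  calc T / T ^ A * (1 + Y) ^ 3 * (∑' n : Pr, ‖bG ψ a Y n‖ * (nm n / Y) ^ A) ^ 2
      ≤ T / T ^ A * (2 * Z) ^ 3 * (C * Z) ^ 2 := by
        gcongr
        · linarith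
        · exact h2.trans (by gcongr)
    _ = 8 * C ^ 2 * (T / T ^ A * Z ^ 5) := by ring

/-- The rows of one label `l = (e, g, j)`, `H = len K Y T l ≤ Z⁴` (no rows if `H < 1`), `u = h v e g²`.
Exceptional `u`: `card_exc_le` (`y = v e g²`), `child_triv`.  Other `u`: at most `11 H` rows, `child_pv` at
`Z ^ 9` with `r' = h e g r`. -/
theorem gram_rows {q : O} (hq : Lev q) {a δ : ℝ} (ha : 0 < a) (hδ : 0 < δ) : ∃ C : ℝ, 0 < C ∧
    ∀ (ψ ρ : O → ℂ) (Z H Y τ : ℝ) (l : O × O × O) (v r : O), IsTw q ψ → IsTw 4 ρ → 1 ≤ Z → 0 < H →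
      H ≤ Z ^ 4 → 0 < Y → Y ≤ Z → l ∈ Lab (Z ^ 2) → v ≠ 0 → R17.C.Rad v r → nm r ≤ Z →
      ∑ h ∈ rows H, ‖Sp false (child (bG ψ a Y) ρ (δ + τ * I) l) (h * v * l.1 * l.2.1 ^ 2)‖ ^ 2 ≤
        C * Z ^ (30 * δ) * (1 + |τ|) ^ C * (H ^ (1 / 6 : ℝ) * (Y / nm (l.1 * l.2.1 * l.2.2)) +
          H * Real.sqrt (H * nm l.1 * nm l.2.1 * nm r)) := by
  classical
  obtain ⟨C1, hC1, h1⟩ := card_exc_le hq.1 hδ
  obtain ⟨C2, hC2, h2⟩ := child_triv ha δ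
  obtain ⟨C3, hC3, h3⟩ := child_pv hq ha hδ hδ
  refine ⟨C1 * C2 + 11 * C3, by positivity,
    fun ψ ρ Z H Y τ l v r hψ hρ hZ hH hHZ hY hYZ hl hv hr hrZ => ?_⟩
  obtain ⟨e, g, j⟩ := l
  obtain ⟨he, hg, hj, hp, hsq, h2', hn⟩ := mem_Lab.1 hl
  have hd := hp.ne_zero
  have hd1 := one_le_nm hd
  have hZ0 : 0 < Z := by linarith
  have hτ : 1 ≤ 1 + |τ| := by linarith [abs_nonneg τ]
  dsimp only
  rcases lt_or_ge H 1 with hH1 | hH1
  · rw [Finset.sum_eq_zero fun h hh => absurd ((one_le_nm (mem_rows.1 hh).1).trans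
      (mem_rows.1 hh).2) (not_le.2 hH1)]
    positivity
  have hy : v * e * g ^ 2 ≠ 0 := mul_ne_zero (mul_ne_zero hv he.ne_zero) (pow_ne_zero _ hg.ne_zero)
  have hZ9 : ∀ k : ℕ, k ≤ 9 → Z ^ k ≤ Z ^ 9 := fun k hk => pow_le_pow_right₀ hZ hk
  have hZZ : Z ≤ Z ^ 9 := by simpa using hZ9 1 (by norm_num)
  rw [← Finset.sum_filter_add_sum_filter_not (rows H) fun h => Exc q (h * v * e * g ^ 2)]
  have b1 : ∑ h ∈ (rows H).filter fun h => Exc q (h * v * e * g ^ 2),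
      ‖Sp false (child (bG ψ a Y) ρ (δ + τ * I) (e, g, j)) (h * v * e * g ^ 2)‖ ^ 2 ≤
      C1 * C2 * Z ^ (30 * δ) * (H ^ (1 / 6 : ℝ) * (Y / nm (e * g * j))) := by
    refine (Finset.sum_le_card_nsmul _ _ _ fun h _ => h2 ψ ρ Y τ (e, g, j) _ (hψ.norm_le hq.1)
      (hρ.norm_le (by norm_num)) hY hd).trans ?_
    have c1 := h1 (v * e * g ^ 2) H ((rows H).filter fun h => Exc q (h * v * e * g ^ 2)) hy hH1
      fun h hh => ⟨(mem_rows.1 (Finset.mem_filter.1 hh).1).1,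
        by simpa only [mul_assoc] using (Finset.mem_filter.1 hh).2,
        (mem_rows.1 (Finset.mem_filter.1 hh).1).2⟩
    have hW : 0 < Y / nm (e * g * j) := by positivity
    have hWZ : Y / nm (e * g * j) ≤ Z := (div_le_self hY.le hd1).trans hYZ
    have c2 : H ^ δ ≤ Z ^ (4 * δ) := by
      rw [Real.rpow_mul hZ0.le]
      exact Real.rpow_le_rpow hH.le (by exact_mod_cast hHZ) hδ.le
    have c3 : (Y / nm (e * g * j)) ^ (2 * δ) ≤ Z ^ (2 * δ) :=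
      Real.rpow_le_rpow hW.le hWZ (by positivity)
    have c4 : Z ^ (4 * δ) * Z ^ (2 * δ) ≤ Z ^ (30 * δ) := by
      rw [← Real.rpow_add hZ0]
      exact Real.rpow_le_rpow_of_exponent_le hZ (by linarith)
    rw [nsmul_eq_mul]
    dsimp only
    rw [Real.rpow_add hH] at c1
    rw [Real.rpow_add hW, Real.rpow_one]
    calc _ ≤ C1 * (H ^ (1 / 6 : ℝ) * Z ^ (4 * δ)) * (C2 * (Y / nm (e * g * j) * Z ^ (2 * δ))) := by
          gcongr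
          exact c1.trans (by gcongr)
      _ = C1 * C2 * (Z ^ (4 * δ) * Z ^ (2 * δ)) * (H ^ (1 / 6 : ℝ) * (Y / nm (e * g * j))) := by ring
      _ ≤ _ := by gcongr
  have b2 : ∑ h ∈ (rows H).filter fun h => ¬ Exc q (h * v * e * g ^ 2),
      ‖Sp false (child (bG ψ a Y) ρ (δ + τ * I) (e, g, j)) (h * v * e * g ^ 2)‖ ^ 2 ≤
      11 * C3 * Z ^ (30 * δ) * (1 + |τ|) ^ C3 * (H * Real.sqrt (H * nm e * nm g * nm r)) := by
    refine (Finset.sum_le_card_nsmul _ _ (C3 * Z ^ (30 * δ) * (1 + |τ|) ^ C3 *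
      Real.sqrt (H * nm e * nm g * nm r)) fun h hh => ?_).trans ?_
    · obtain ⟨hh1, hh2⟩ := Finset.mem_filter.1 hh
      obtain ⟨hh0, hhH⟩ := mem_rows.1 hh1
      obtain ⟨hr0, k, hk⟩ := hr
      have n1 := nm_nonneg e
      have n2 := nm_nonneg g
      have n3 := nm_nonneg r
      have heg : nm e * nm g ≤ Z ^ 2 := by
        rw [← nm_mul]
        exact (nm_le_of_dvd (dvd_mul_right _ _) hd).trans hn
      have hr' : nm (h * r * e * g) ≤ H * nm e * nm g * nm r := by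
        rw [nm_mul, nm_mul, nm_mul]
        calc nm h * nm r * nm e * nm g ≤ H * nm r * nm e * nm g := by gcongr
          _ = _ := by ring
      have hr'' : H * nm e * nm g * nm r ≤ Z ^ 9 :=
        calc H * nm e * nm g * nm r = H * (nm e * nm g) * nm r := by ring
          _ ≤ Z ^ 4 * Z ^ 2 * Z := by gcongr
          _ = Z ^ 7 := by ring
          _ ≤ _ := hZ9 7 (by norm_num)
      have hrad : R17.C.Rad (h * v * e * g ^ 2) (h * r * e * g) := by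
        refine ⟨mul_ne_zero (mul_ne_zero (mul_ne_zero hh0 hr0) he.ne_zero) hg.ne_zero, k + 2, ?_⟩
        rw [mul_pow, mul_pow, mul_pow]
        exact mul_dvd_mul (mul_dvd_mul (mul_dvd_mul (dvd_pow_self _ (by omega))
          (hk.trans (pow_dvd_pow _ (by omega)))) (dvd_pow_self _ (by omega)))
          (pow_dvd_pow _ (by omega))
      refine (h3 ψ ρ (Z ^ 9) Y τ (e, g, j) _ (h * r * e * g) hψ hρ (hZ.trans hZZ) hY (hYZ.trans hZZ)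
        (mem_Lab.2 ⟨he, hg, hj, hp, hsq, h2', hn.trans (hZ9 2 (by norm_num))⟩)
        (mul_ne_zero (mul_ne_zero (mul_ne_zero hh0 hv) he.ne_zero) (pow_ne_zero _ hg.ne_zero))
        hh2 hrad (hr'.trans hr'')).trans ?_
      have c5 : (Z ^ 9) ^ (2 * δ + δ) ≤ Z ^ (30 * δ) := by
        rw [← Real.rpow_natCast, ← Real.rpow_mul hZ0.le]
        exact Real.rpow_le_rpow_of_exponent_le hZ (by push_cast; linarith)
      gcongr
    · have c6 := card_le_of_nm_le (A := (rows H).filter fun h => ¬ Exc q (h * v * e * g ^ 2)) hH.le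
        fun h hh => mem_rows.1 (Finset.mem_filter.1 hh).1
      rw [nsmul_eq_mul]
      calc _ ≤ 11 * H * (C3 * Z ^ (30 * δ) * (1 + |τ|) ^ C3 *
            Real.sqrt (H * nm e * nm g * nm r)) := by gcongr
        _ = _ := by ring
  have t1 : 1 ≤ (1 + |τ|) ^ (C1 * C2 + 11 * C3) := Real.one_le_rpow hτ (by positivity)
  have t2 : (1 + |τ|) ^ C3 ≤ (1 + |τ|) ^ (C1 * C2 + 11 * C3) :=
    Real.rpow_le_rpow_of_exponent_le hτ (by nlinarith [mul_pos hC1 hC2])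
  rw [mul_add]
  refine add_le_add (b1.trans ?_) (b2.trans ?_)
  · calc _ = C1 * C2 * Z ^ (30 * δ) * 1 * (H ^ (1 / 6 : ℝ) * (Y / nm (e * g * j))) := by ring
      _ ≤ _ := by
        gcongr
        linarith
  · gcongr
    linarith [mul_pos hC1 hC2]

theorem GramCb_term {δ Z K Y e g j ρ : ℝ} (hδ : 0 < δ) (hδ' : δ ≤ 1 / 100) (hZ : 1 ≤ Z) (hK : Z⁻¹ ≤ K)
    (hY : 0 < Y) (he : 1 ≤ e) (hg : 1 ≤ g) (hj : 1 ≤ j) (h : e * g * j ≤ Z ^ 2) :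
    K / (e * j) * (e * j ^ 2 / K) ^ δ *
      ((Z ^ δ * Y ^ 2 / (K * e * g ^ 2)) ^ (1 / 6 : ℝ) * (Y / (e * g * j)) +
        Z ^ δ * Y ^ 2 / (K * e * g ^ 2) * Real.sqrt (Z ^ δ * Y ^ 2 / (K * e * g ^ 2) * e * g * ρ)) ≤
      Z ^ (9 * δ) * (K ^ (5 / 6 : ℝ) * Y ^ (4 / 3 : ℝ) + Y ^ 3 * K ^ (-1 / 2 : ℝ) * Real.sqrt ρ) *
        (e ^ (-(1 + δ)) * g ^ (-(1 + δ)) * j ^ (-(1 + δ))) := by
  have hZ0 : 0 < Z := by linarith
  have hK0 : 0 < K := lt_of_lt_of_le (inv_pos.mpr hZ0) hK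
  obtain ⟨z, rfl⟩ : ∃ z, Z = Real.exp z := ⟨_, (Real.exp_log hZ0).symm⟩
  obtain ⟨k, rfl⟩ : ∃ z, K = Real.exp z := ⟨_, (Real.exp_log hK0).symm⟩
  obtain ⟨y, rfl⟩ : ∃ z, Y = Real.exp z := ⟨_, (Real.exp_log hY).symm⟩
  obtain ⟨a, rfl⟩ : ∃ z, e = Real.exp z := ⟨_, (Real.exp_log (by linarith)).symm⟩
  obtain ⟨b, rfl⟩ : ∃ z, g = Real.exp z := ⟨_, (Real.exp_log (by linarith)).symm⟩
  obtain ⟨c, rfl⟩ : ∃ z, j = Real.exp z := ⟨_, (Real.exp_log (by linarith)).symm⟩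
  rw [Real.one_le_exp_iff] at hZ he hg hj
  rw [← Real.exp_neg, Real.exp_le_exp] at hK
  rw [← Real.exp_add, ← Real.exp_add, ← Real.exp_nat_mul, Real.exp_le_exp] at h
  rw [Real.sqrt_mul (by positivity), mul_add, mul_add, add_mul, ← mul_assoc _ _ (Real.sqrt ρ),
    ← mul_assoc _ _ (Real.sqrt ρ), ← mul_assoc _ _ (Real.sqrt ρ), mul_right_comm _ (Real.sqrt ρ)]
  simp only [← Real.exp_nat_mul, ← Real.exp_mul, ← Real.exp_add, ← Real.exp_sub, ← Real.exp_half]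
  push_cast at h ⊢
  have h1 : 0 ≤ δ * (2 * z - (a + b + c)) := mul_nonneg hδ.le (by linarith)
  have h2 : 0 ≤ δ * (k + z) := mul_nonneg hδ.le (by linarith)
  have h3 : 0 ≤ δ * z := mul_nonneg hδ.le hZ
  have h4 : 0 ≤ δ * a := mul_nonneg hδ.le he
  have h5 : 0 ≤ δ * b := mul_nonneg hδ.le hg
  have h6 : 0 ≤ δ * c := mul_nonneg hδ.le hj
  have h7 : 0 ≤ (1 / 100 - δ) * a := mul_nonneg (by linarith) he
  have h8 : 0 ≤ (1 / 100 - δ) * b := mul_nonneg (by linarith) hg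
  have h9 : 0 ≤ (1 / 100 - δ) * c := mul_nonneg (by linarith) hj
  refine add_le_add (Real.exp_le_exp.mpr ?_)
    (mul_le_mul_of_nonneg_right (Real.exp_le_exp.mpr ?_) (Real.sqrt_nonneg _))
  · nlinarith
  · nlinarith

/-- `lemmaP2` (one-point family, `σ = δ = min ε 1 / 100`, `T = Z ^ δ`, `δ (A - 1) ≥ 6`), `gram_rows`,
`exp_twist_le`; `pre ≤ K / (N e N j) · Z^(5δ)`; with `H = T Y² / (K N e N g²)` the two terms are
`T^(1/6) K^(5/6) Y^(4/3) N e^(-13/6) N g^(-4/3) N j^(-2)` and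
`T^(3/2) Y³ K^(-1/2) √(N r) N e^(-2) N g^(-5/2) N j^(-1)`, `N j^(-1) ≤ Z^(2δ) N j^(-1-δ)`; `sum_Lab_le`. -/
theorem gram_core {q : O} (hq : Lev q) {a ε : ℝ} (ha : 0 < a) (hε : 0 < ε) : ∃ C : ℝ, 0 < C ∧
    ∀ (ψ : O → ℂ) (Z K Y : ℝ) (v r : O), IsTw q ψ → 1 ≤ Z → Z⁻¹ ≤ K → 0 < Y → Y ≤ Z →
      v ≠ 0 → R17.C.Rad v r → nm r ≤ Z →
      En true (fun m => bG ψ a Y m * gt m * sx v m) K ≤ C * Z ^ ε *
        (K * Y + K ^ (5 / 6 : ℝ) * Y ^ (4 / 3 : ℝ) + Y ^ 3 * K ^ (-1 / 2 : ℝ) * Real.sqrt (nm r) +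
          Z⁻¹) := by
  obtain ⟨δ, hδ, hδ', hδε⟩ : ∃ δ : ℝ, 0 < δ ∧ δ ≤ 1 / 100 ∧ 100 * δ ≤ ε :=
    ⟨min ε 1 / 100, by positivity, by linarith [min_le_right ε 1], by linarith [min_le_left ε 1]⟩
  obtain ⟨A, hA⟩ := exists_nat_ge (6 / δ + 2)
  have hA2 : 2 ≤ A := by
    have h : (2 : ℝ) ≤ A := by
      have : 0 < 6 / δ := by positivity
      linarith
    exact_mod_cast h
  have hA6 : 6 ≤ δ * (A - 1) := by
    have h : 6 / δ ≤ A - 1 := by linarith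
    rwa [div_le_iff₀' hδ] at h
  obtain ⟨C₀, hC₀, h₀⟩ := lemmaP2 δ hδ A hA2
  obtain ⟨C₁, hC₁, h₁⟩ := l2_bG_le ha
  obtain ⟨C₂, hC₂, h₂⟩ := tail_bG_le ha A
  obtain ⟨C₃, hC₃, h₃⟩ := gram_rows hq ha hδ
  obtain ⟨C₄, hC₄, h₄⟩ := exp_twist_le C₃
  obtain ⟨C₅, hC₅, h₅⟩ := sum_Lab_le (s := 1 + δ) (by linarith)
  refine ⟨C₁ + C₀ * C₃ * C₄ * C₅ + C₀ * C₂, by positivity, ?_⟩
  intro ψ Z K Y v r hψ hZ hK hY hYZ hv hr hrZ
  have hZ0 : 0 < Z := by linarith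
  have hK0 : 0 < K := lt_of_lt_of_le (inv_pos.mpr hZ0) hK
  have hT1 : 1 ≤ Z ^ δ := Real.one_le_rpow hZ hδ.le
  have hTZ : Z ^ δ ≤ Z := by
    calc Z ^ δ ≤ Z ^ (1 : ℝ) := Real.rpow_le_rpow_of_exponent_le hZ (by linarith)
      _ = Z := Real.rpow_one Z
  have hψ1 : ∀ n, ‖ψ n‖ ≤ 1 := hψ.norm_le hq.1
  obtain ⟨τ, ρ, hρ, h⟩ := h₀ (Finset.univ : Finset Unit) (fun _ => bG ψ a Y) (fun _ => v) (fun _ => 1)
    (fun _ => K) (fun _ => Y) (Z ^ δ) hT1 (fun _ _ => ⟨admP_bG hq hψ ha hY, zero_le_one, hK0, hY⟩)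
  simp only [Finset.univ_unique, Finset.sum_singleton, one_mul] at h
  set M : ℝ := K ^ (5 / 6 : ℝ) * Y ^ (4 / 3 : ℝ) + Y ^ 3 * K ^ (-1 / 2 : ℝ) * Real.sqrt (nm r) with hM
  have hM0 : 0 ≤ M := by positivity
  have hZε : 1 ≤ Z ^ ε := Real.one_le_rpow hZ hε.le
  -- the diagonal
  have e1 : K * l2 (bG ψ a Y) ≤ C₁ * (K * Y) := by
    have := mul_le_mul_of_nonneg_left (h₁ ψ Y hψ1 hY) hK0.le
    linarith
  -- the tail
  have e2 : tail A (bG ψ a Y) Y (Z ^ δ) ≤ C₂ * Z⁻¹ := by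
    refine (h₂ ψ Y (Z ^ δ) Z hψ1 hY hYZ hZ (by linarith)).trans
      (mul_le_mul_of_nonneg_left ?_ hC₂.le)
    rw [← Real.rpow_natCast, ← Real.rpow_natCast Z 5, ← Real.rpow_mul hZ0.le, ← Real.rpow_sub hZ0,
      ← Real.rpow_add hZ0, ← Real.rpow_neg_one]
    refine Real.rpow_le_rpow_of_exponent_le hZ ?_
    push_cast
    linarith
  -- the labels
  have e3 : ∑ l ∈ Lab (Y * Z ^ δ), pre δ K l * ∑ h ∈ rows (len K Y (Z ^ δ) l),
      ‖Sp false (child (bG ψ a Y) ρ (δ + τ * I) l) (h * v * l.1 * l.2.1 ^ 2)‖ ^ 2 ≤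
      C₃ * Z ^ (30 * δ) * (1 + |τ|) ^ C₃ * (Z ^ (9 * δ) * M) * C₅ := by
    refine le_trans (Finset.sum_le_sum (g := fun l => C₃ * Z ^ (30 * δ) * (1 + |τ|) ^ C₃ *
      (Z ^ (9 * δ) * M) * (nm l.1 ^ (-(1 + δ)) * nm l.2.1 ^ (-(1 + δ)) * nm l.2.2 ^ (-(1 + δ))))
      fun l hl => ?_) ?_
    · obtain ⟨p1, p2, p3, q1, q2, q3, q4⟩ := mem_Lab'.mp hl
      have hlZ : nm (l.1 * l.2.1 * l.2.2) ≤ Z ^ 2 := by
        refine q4.trans ?_
        rw [pow_two]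
        exact mul_le_mul hYZ hTZ (by linarith) hZ0.le
      have hl' : l ∈ Lab (Z ^ 2) := mem_Lab'.mpr ⟨p1, p2, p3, q1, q2, q3, hlZ⟩
      have hne := q2.ne_zero
      have n1 : 1 ≤ nm l.1 := one_le_nm (left_ne_zero_of_mul (left_ne_zero_of_mul hne))
      have n2 : 1 ≤ nm l.2.1 := one_le_nm (right_ne_zero_of_mul (left_ne_zero_of_mul hne))
      have n3 : 1 ≤ nm l.2.2 := one_le_nm (right_ne_zero_of_mul hne)
      have hH : 0 < len K Y (Z ^ δ) l := by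
        unfold len
        positivity
      have hH4 : len K Y (Z ^ δ) l ≤ Z ^ 4 := by
        unfold len
        rw [div_le_iff₀ (by positivity)]
        have a1 : Z ^ δ * Y ^ 2 ≤ Z * Z ^ 2 := by gcongr
        have a2 : 1 ≤ Z * K := by
          rw [inv_le_iff_one_le_mul₀' hZ0] at hK
          exact hK
        have a3 : 1 ≤ nm l.1 * nm l.2.1 ^ 2 := one_le_mul_of_one_le_of_one_le n1 (one_le_pow₀ n2)
        calc Z ^ δ * Y ^ 2 ≤ Z * Z ^ 2 * 1 * 1 := by linarith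
          _ ≤ Z * Z ^ 2 * (Z * K) * (nm l.1 * nm l.2.1 ^ 2) := by gcongr
          _ = Z ^ 4 * (K * nm l.1 * nm l.2.1 ^ 2) := by ring
      have hr3 := h₃ ψ ρ Z _ Y τ l v r hψ hρ hZ hH hH4 hY hYZ hl' hv hr hrZ
      have hpre : 0 ≤ pre δ K l := by
        unfold pre
        positivity
      rw [nm_mul, nm_mul] at hlZ hr3
      have ht := GramCb_term (ρ := nm r) hδ hδ' hZ hK hY n1 n2 n3 hlZ
      refine (mul_le_mul_of_nonneg_left hr3 hpre).trans ?_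
      rw [mul_left_comm, mul_assoc _ (Z ^ (9 * δ) * M)]
      exact mul_le_mul_of_nonneg_left ht (by positivity)
    · rw [← Finset.mul_sum]
      exact mul_le_mul_of_nonneg_left (h₅ _) (by positivity)
  have e4 : Real.exp (-|τ| / 2) * (1 + |τ|) ^ C₃ ≤ C₄ := by
    simpa using h₄ τ 0 le_rfl
  have e5 : Z ^ (30 * δ) * Z ^ (9 * δ) ≤ Z ^ ε := by
    rw [← Real.rpow_add hZ0]
    exact Real.rpow_le_rpow_of_exponent_le hZ (by linarith)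
  have e6 : C₀ * Real.exp (-|τ| / 2) * (C₃ * Z ^ (30 * δ) * (1 + |τ|) ^ C₃ * (Z ^ (9 * δ) * M) * C₅) ≤
      C₀ * C₃ * C₄ * C₅ * (Z ^ ε * M) := by
    calc _ = C₀ * C₃ * (Real.exp (-|τ| / 2) * (1 + |τ|) ^ C₃) * C₅ *
          ((Z ^ (30 * δ) * Z ^ (9 * δ)) * M) := by ring
      _ ≤ _ := by gcongr
  have e7 := mul_le_mul_of_nonneg_left e3 (show 0 ≤ C₀ * Real.exp (-|τ| / 2) by positivity)
  have e8 := mul_le_mul_of_nonneg_left e2 hC₀.le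
  have hKY : 0 ≤ K * Y := by positivity
  have hZi : 0 ≤ Z⁻¹ := by positivity
  have f1 : K * Y ≤ Z ^ ε * (K * Y + M + Z⁻¹) := by nlinarith
  have f2 : Z ^ ε * M ≤ Z ^ ε * (K * Y + M + Z⁻¹) := by gcongr; linarith
  have f3 : Z⁻¹ ≤ Z ^ ε * (K * Y + M + Z⁻¹) := by nlinarith
  have g1 := mul_le_mul_of_nonneg_left f1 hC₁.le
  have g2 := mul_le_mul_of_nonneg_left f2 (show 0 ≤ C₀ * C₃ * C₄ * C₅ by positivity)
  have g3 := mul_le_mul_of_nonneg_left f3 (show 0 ≤ C₀ * C₂ by positivity)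
  rw [add_assoc (K * Y), ← hM]
  linarith

end Crest.Agent.R17
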