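import Crest.Agent.R17.P.Glue

/-!
Row 17, block P: Poisson summation for one pair of columns.
-/

set_option autoImplicit false

namespace Crest.Agent.R17

open scoped ComplexConjugate

theorem norm_Wk_le {a b : O} (ha : IsCoprime a 2) (hb : IsCoprime b 2) : ‖Wk a b‖ ≤ 1 := by
  rw [Wk, norm_mul, norm_eps ha hb, one_mul]
  exact norm_sx_le _ _

theorem norm_bet_le (e h : O) {n : O} (hn : Osq n) : ‖bet e h n‖ ≤ 1 / Real.sqrt (nm n) := by
  rw [bet, norm_div, norm_mul, norm_mul, hn.norm_gt, one_mul, Complex.norm_conj, Complex.norm_real,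
    Real.norm_of_nonneg (Real.sqrt_nonneg _)]
  refine div_le_div_of_nonneg_right ?_ (Real.sqrt_nonneg _)
  exact mul_le_one₀ (norm_sx_le _ _) (norm_nonneg _) (norm_sx_le _ _)

theorem norm_Tm_le (L : ℝ) (e h : O) {n₁ n₂ : O} (h₁ : Osq n₁) (h₂ : Osq n₂) :
    ‖Tm L e h n₁ n₂‖ ≤ gw (nm n₁ * nm n₂ / L) h / (Real.sqrt (nm n₁) * Real.sqrt (nm n₂)) := by
  have g0 := (gw_pos (nm n₁ * nm n₂ / L) h).le
  rw [Tm, norm_mul, norm_mul, norm_mul, Complex.norm_conj, Complex.norm_real,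
    Real.norm_of_nonneg g0]
  have b1 := norm_bet_le e h h₁
  have b2 := norm_bet_le e h h₂
  have w := norm_Wk_le h₁.2.2 h₂.2.2
  calc _ ≤ 1 / Real.sqrt (nm n₁) * (1 / Real.sqrt (nm n₂)) * 1 * gw (nm n₁ * nm n₂ / L) h := by
        gcongr
    _ = _ := by rw [mul_one, one_div_mul_one_div, one_div_mul_eq_div]

theorem summable_Tm {L : ℝ} (hL : 0 < L) (e : O) {n₁ n₂ : O} (h₁ : Osq n₁) (h₂ : Osq n₂) :
    Summable fun h : O => Tm L e h n₁ n₂ := by
  have hp : 0 < nm n₁ * nm n₂ / L := div_pos (mul_pos (nm_pos h₁.1.ne_zero) (nm_pos h₂.1.ne_zero)) hL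
  exact Summable.of_norm_bounded ((summable_gw hp).div_const _) fun h => norm_Tm_le L e h h₁ h₂

theorem PairAa_bet_zero (e : O) {n : O} (hn : Osq n) (h : n ≠ 1) : bet e 0 n = 0 := by
  have : sx 0 n = 0 := sx_eq_zero_of_not_coprime fun hc =>
    h (hn.1.eq_one_of_isUnit (isCoprime_zero_left.1 hc))
  rw [bet, this]
  simp

open Classical in
/-- `sx 0 n = 0` unless `n` is a unit -/
theorem Tm_zero (L : ℝ) (e : O) {n₁ n₂ : O} (h₁ : Osq n₁) (h₂ : Osq n₂) :
    Tm L e 0 n₁ n₂ = if n₁ = 1 ∧ n₂ = 1 then 1 else 0 := by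
  split_ifs with h
  · obtain ⟨rfl, rfl⟩ := h
    simp [Tm, bet, Wk, gt_one, sx_one_right, gw_zero, eps_one_left isCoprime_one_left]
  · rcases not_and_or.1 h with h | h
    · rw [Tm, PairAa_bet_zero e h₁ h]; simp
    · rw [Tm, PairAa_bet_zero e h₂ h]; simp

/-- `Osq.gt_mul` -/
theorem bet_mul (e h : O) {j m : O} (hj : Prim j) (hm : Osq (j * m)) :
    bet e h (j * m) = bet e h j * eps j m * bet (e * j ^ 2) h m := by
  rw [bet, bet, bet, hm.gt_mul hj, sx_mul_right, sx_mul_right, sx_mul_left, nm_mul,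
    Real.sqrt_mul (nm_nonneg j), map_mul]
  push_cast
  ring

/-- `bet_mul`, `eps_mul_left/right`, `eps_mul_self`; `Wk j j = 1` by `eps_self`, `gam_sq'` -/
theorem Tm_mul (L : ℝ) (e h : O) {j m₁ m₂ : O} (hj : Prim j) (h₁ : Osq (j * m₁))
    (h₂ : Osq (j * m₂)) :
    Tm L e h (j * m₁) (j * m₂) =
      ((‖bet e h j‖ ^ 2 : ℝ) : ℂ) * Tm (L / nm j ^ 2) (e * j ^ 2) h m₁ m₂ := by
  have oj := (h₁.left hj).2.2
  have o1 := (h₁.right hj).2.2
  have o2 := (h₂.right hj).2.2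
  have e0 : eps j j * sx (-1) j = 1 := by
    rw [← gam_sq' (hj.coprime_six oj), ← eps_self oj, eps_mul_self oj oj]
  have e1 : eps j m₁ * eps m₁ j = 1 := by rw [eps_comm m₁ j, eps_mul_self oj o1]
  have e2 : eps j m₂ * eps j m₂ = 1 := eps_mul_self oj o2
  have hl : nm (j * m₁) * nm (j * m₂) / L = nm m₁ * nm m₂ / (L / nm j ^ 2) := by
    rw [nm_mul, nm_mul, div_div_eq_mul_div]
    ring
  have hb : ((‖bet e h j‖ ^ 2 : ℝ) : ℂ) = bet e h j * conj (bet e h j) := by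
    rw [Complex.mul_conj, Complex.normSq_eq_norm_sq]
  rw [Tm, Tm, bet_mul e h hj h₁, bet_mul e h hj h₂, hl, hb, Wk, Wk, eps_mul_left oj o1 h₂.2.2,
    eps_mul_right oj oj o2, eps_mul_right o1 oj o2, sx_mul_right, map_mul, map_mul,
    conj_eps oj o2]
  linear_combination (bet e h j * conj (bet e h j) * bet (e * j ^ 2) h m₁ *
    conj (bet (e * j ^ 2) h m₂) * eps m₁ m₂ * sx (-1) m₂ *
    (gw (nm m₁ * nm m₂ / (L / nm j ^ 2)) h : ℝ)) *
      ((eps j m₁ * eps m₁ j) * (eps j m₂ * eps j m₂) * e0 + (eps j m₂ * eps j m₂) * e1 + e2)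

theorem PairAb_per (n₁ n₂ : O) : Per (n₁ * n₂) fun y => sx y n₁ ^ 1 * sx y n₂ ^ 5 :=
  (((per_sx n₁).comp (· ^ 1)).mono (dvd_mul_right _ _)).mul
    (((per_sx n₂).comp (· ^ 5)).mono (dvd_mul_left _ _))

/-- `poisson` with `Q = n₁ n₂`, `Ψ y = sx y n₁ ^ 1 * sx y n₂ ^ 5`; `FT_sx_mul`, `conj_sx`,
`sx_mul_conj_swap`, `gs_sqfree`, `gs_five` -/
theorem poisson_cop {L : ℝ} (hL : 0 < L) (e : O) {n₁ n₂ : O} (h₁ : Osq n₁) (h₂ : Osq n₂)
    (h : IsCoprime n₁ n₂) :
    ∑' k : O, sx (e * k) n₁ * conj (sx (e * k) n₂) * (gw L k : ℝ) =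
      L * ∑' h : O, Tm L e h n₁ n₂ := by
  have a1 := h₁.1.ne_zero
  have a2 := h₂.1.ne_zero
  have e1 : ∀ k : O, sx (e * k) n₁ * conj (sx (e * k) n₂) * (gw L k : ℝ) =
      sx e n₁ * conj (sx e n₂) * (sx k n₁ ^ 1 * sx k n₂ ^ 5 * (gw L k : ℝ)) := fun k => by
    rw [sx_mul_left, sx_mul_left, map_mul, conj_sx k]; ring
  simp only [e1]
  rw [tsum_mul_left, poisson (mul_ne_zero a1 a2) (PairAb_per n₁ n₂) hL, ← mul_assoc,
    ← tsum_mul_left, ← tsum_mul_left]
  refine tsum_congr fun k => ?_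
  have e2 := sx_mul_conj_swap h₂.1 h₁.1 h₂.2.2 h₁.2.2
  rw [if_pos h.symm, eps_comm] at e2
  have s1 := gsb_sqrt_sq n₁
  have s2 := gsb_sqrt_sq n₂
  have s3 := gsb_sqrt_ne a1
  have s4 := gsb_sqrt_ne a2
  rw [FT_sx_mul 1 5 a1 a2 h, gs_five k a2, gs_sqfree h₁.2.1 (by norm_num) k,
    gs_sqfree h₂.2.1 (by norm_num) k, ← conj_sx, pow_one, e2, nm_mul]
  simp only [Tm, bet, gt, Wk, map_mul, map_div₀, Complex.conj_ofReal, Complex.conj_conj, pow_one]
  push_cast
  rw [← s1, ← s2]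
  field_simp

/-- `sx_mul_right`, `sx_mul_conj`, `sum_mu_coprime`, `Summable.tsum_finsetSum`, `tsum_dvd`, `gw_mul`,
`poisson_cop` -/
theorem Phi_eq {K : ℝ} (hK : 0 < K) {g n₁ n₂ : O} (hg : Prim g) (h₁ : Osq (g * n₁))
    (h₂ : Osq (g * n₂)) (h : IsCoprime n₁ n₂) :
    Phi K (g * n₁) (g * n₂) =
      ∑ e ∈ pdiv g, mu e * (K / nm e : ℝ) * ∑' h : O, Tm (K / nm e) e h n₁ n₂ := by
  classical
  have b1 := h₁.right hg
  have b2 := h₂.right hg
  have h6 : IsCoprime g 6 := hg.coprime_six (h₁.left hg).2.2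
  set F : O → ℂ := fun k => sx k n₁ * conj (sx k n₂) * (gw K k : ℝ) with hF
  have hs : Summable F := by
    have := Per.summable_gw (mul_ne_zero b1.1.ne_zero b2.1.ne_zero) (PairAb_per n₁ n₂) hK
    simpa only [hF, conj_sx, pow_one] using this
  have e1 : ∀ k : O, sx k (g * n₁) * conj (sx k (g * n₂)) * (gw K k : ℝ) =
      ∑ e ∈ pdiv g, if e ∣ k then mu e * F k else 0 := fun k => by
    have e2 : sx k g * conj (sx k g) = ∑ e ∈ pdiv g, if e ∣ k then mu e else 0 := by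
      rw [sx_mul_conj, sum_mu_coprime hg]
      exact if_congr (by rw [and_iff_right h6, isCoprime_comm]) rfl rfl
    calc _ = sx k g * conj (sx k g) * F k := by
          rw [sx_mul_right, sx_mul_right, map_mul, hF]; ring
      _ = _ := by simp only [e2, Finset.sum_mul, ite_mul, zero_mul]
  simp only [Phi, e1]
  rw [Summable.tsum_finsetSum fun e _ => ?_]
  · refine Finset.sum_congr rfl fun e he => ?_
    have he0 := ((mem_pdiv hg.ne_zero).1 he).1.ne_zero
    rw [tsum_dvd he0, tsum_mul_left, mul_assoc,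
      ← poisson_cop (div_pos hK (nm_pos he0)) e b1 b2 h]
    simp only [hF, gw_mul he0]
  · refine (hs.mul_left (mu e)).norm.of_norm_bounded fun k => ?_
    split_ifs
    · exact le_rfl
    · rw [norm_zero]; exact norm_nonneg _

/-- `∏ (1 - 1 / N p)`; `Prim.induction_sqfree`, `sum_pdiv_mul` -/
theorem norm_sum_mu_div_le {g : O} (hg : Osq g) : ‖∑ e ∈ pdiv g, mu e / (nm e : ℂ)‖ ≤ 1 := by
  classical
  obtain ⟨h1, h2, -⟩ := hg
  refine h1.induction_sqfree (P := fun g => ‖∑ e ∈ pdiv g, mu e / (nm e : ℂ)‖ ≤ 1) h2 ?_ ?_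
  · have : pdiv 1 = {1} := by
      ext d
      rw [mem_pdiv one_ne_zero, Finset.mem_singleton]
      exact ⟨fun h => h.1.eq_one_of_isUnit (isUnit_of_dvd_one h.2), fun h => by rw [h]; exact ⟨prim_one, dvd_rfl⟩⟩
    simp [this, mu_one]
  · intro p m hp hp' hm _ hpm ih
    have hc : IsCoprime p m := (hp.irreducible.coprime_iff_not_dvd).2 hpm
    have hd : pdiv p = {1, p} := by
      ext d
      rw [mem_pdiv hp.ne_zero, Finset.mem_insert, Finset.mem_singleton]
      constructor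
      · rintro ⟨hd, hdp⟩
        rcases hp.irreducible.dvd_iff.1 hdp with h | h
        · exact Or.inl (hd.eq_one_of_isUnit h)
        · exact Or.inr (hp'.eq_of_associated hd h).symm
      · rintro (rfl | rfl)
        exacts [⟨prim_one, one_dvd _⟩, ⟨hp', dvd_rfl⟩]
    have hne : (1 : O) ≠ p := fun h => hp.not_isUnit (h ▸ isUnit_one)
    have key : ∑ e ∈ pdiv (p * m), mu e / (nm e : ℂ) =
        ((1 - 1 / nm p : ℝ) : ℂ) * ∑ e ∈ pdiv m, mu e / (nm e : ℂ) := by
      rw [sum_pdiv_mul hp.ne_zero hm.ne_zero hc, hd, Finset.sum_pair hne, Finset.mul_sum,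
        ← Finset.sum_add_distrib]
      refine Finset.sum_congr rfl fun d hd' => ?_
      have hdm := ((mem_pdiv hm.ne_zero).1 hd').2
      rw [one_mul, mu_mul (hc.of_isCoprime_of_dvd_right hdm), mu_prime hp, nm_mul]
      push_cast
      ring
    rw [key, norm_mul, Complex.norm_real]
    have h2 := two_le_nm hp
    have h3 : 1 / nm p ≤ 1 := by rw [div_le_one (by linarith)]; linarith
    have h4 : 0 ≤ 1 / nm p := by positivity
    rw [Real.norm_of_nonneg (by linarith)]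
    exact mul_le_one₀ (by linarith) (norm_nonneg _) ih

/-- far rows: `exp (-y) ≤ A! / y ^ A`, then `(H / N h) ^ A ≤ (H / N h) ^ 2`, `sum_nm_rpow_tail` -/
theorem gw_far (A : ℕ) (hA : 2 ≤ A) : ∃ C : ℝ, 0 < C ∧ ∀ L H : ℝ, 0 < L → 0 < H →
    ∑' h : O, (if H < nm h then gw L h else 0) ≤ C * H * (L / H) ^ A := by
  classical
  obtain ⟨C, hC, h⟩ := sum_nm_rpow_tail (σ := 2) (by norm_num)
  refine ⟨A.factorial * C, by positivity, fun L H hL hH => ?_⟩
  have hpt : ∀ k : O, H < nm k → gw L k ≤ A.factorial * (L / H) ^ A * H ^ 2 * nm k ^ (-2 : ℝ) := by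
    intro k hk
    have hk0 : 0 < nm k := hH.trans hk
    have hy : 0 < nm k / L := div_pos hk0 hL
    have h1 : gw L k ≤ Real.exp (-(nm k / L)) := by
      rw [gw, Real.exp_le_exp, neg_le_neg_iff, div_le_div_iff₀ hL (by positivity)]
      have h3 : Real.sqrt 3 ≤ 2 := by
        rw [Real.sqrt_le_left (by norm_num)]; norm_num
      have h4 : Real.sqrt 3 ≤ 2 * Real.pi := by nlinarith [Real.pi_gt_three]
      have := mul_le_mul_of_nonneg_right h4 (mul_pos hk0 hL).le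
      linarith
    have h2 : Real.exp (-(nm k / L)) ≤ A.factorial / (nm k / L) ^ A := by
      have := Real.pow_div_factorial_le_exp (nm k / L) hy.le A
      rw [Real.exp_neg, inv_eq_one_div, div_le_div_iff₀ (Real.exp_pos _) (by positivity), one_mul]
      rw [div_le_iff₀ (by positivity)] at this
      linarith
    have h3 : (A.factorial : ℝ) / (nm k / L) ^ A = A.factorial * (L / H) ^ A * (H / nm k) ^ A := by
      rw [mul_assoc, ← mul_pow, div_eq_mul_inv, ← inv_pow]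
      congr 2
      field_simp
    have h4 : (H / nm k) ^ A ≤ (H / nm k) ^ 2 :=
      pow_le_pow_of_le_one (by positivity) ((div_le_one hk0).2 hk.le) hA
    have h5 : (H / nm k) ^ 2 = H ^ 2 * nm k ^ (-2 : ℝ) := by
      rw [Real.rpow_neg hk0.le, Real.rpow_two, div_pow, div_eq_mul_inv]
    calc gw L k ≤ A.factorial * (L / H) ^ A * (H / nm k) ^ A := h1.trans (h2.trans h3.le)
      _ ≤ A.factorial * (L / H) ^ A * (H / nm k) ^ 2 := by gcongr
      _ = _ := by rw [h5]; ring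
  refine Real.tsum_le_of_sum_le (fun k => ?_) fun S => ?_
  · simp only [Pi.zero_apply]
    split_ifs
    exacts [(gw_pos _ _).le, le_rfl]
  · rw [← Finset.sum_filter]
    have h1 := h H (S.filter fun k => H < nm k) hH fun n hn => (Finset.mem_filter.1 hn).2.le
    calc _ ≤ ∑ k ∈ S.filter fun k => H < nm k,
          A.factorial * (L / H) ^ A * H ^ 2 * nm k ^ (-2 : ℝ) :=
          Finset.sum_le_sum fun k hk => hpt k (Finset.mem_filter.1 hk).2
      _ ≤ A.factorial * (L / H) ^ A * H ^ 2 * (C * H ^ ((1 : ℝ) - 2)) := by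
          rw [← Finset.mul_sum]
          gcongr
      _ = _ := by
          rw [show (1 : ℝ) - 2 = -1 by norm_num, Real.rpow_neg_one]
          field_simp

end Crest.Agent.R17
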